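import Mathlib

/-!
# P344: linear circuits whose graph is invariant under translations

Definitions only.
-/

namespace Vale.Agent.P344.Inv

/-- A linear circuit with inputs `x₀, …, x_{n-1}` and `n` outputs. Its gates form a finite
directed acyclic graph; a gate which is not an input computes the fixed linear combination
`∑ u ∈ args g, coef g u * u` of the values of the gates `args g`, with arbitrary complex
coefficients. (The gates `u + v`, `u - v`, `λ u` and the constant `0` are special cases.) -/
structure Circuit (n : ℕ) where
  /-- the gates -/
  G : Type
  /-- there are finitely many gates -/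
  [fin : Fintype G]
  /-- the gates read by a gate -/
  args : G → Finset G
  /-- the coefficients -/
  coef : G → G → ℂ
  /-- the order in which the gates are computed -/
  time : G → ℕ
  /-- a gate is computed after the gates which it reads -/
  time_lt : ∀ g, ∀ u ∈ args g, time u < time g
  /-- the input gates -/
  input : Fin n → G
  /-- the input gates are different -/
  input_inj : Function.Injective input
  /-- input gates read nothing -/
  input_args : ∀ j, args (input j) = ∅
  /-- the output gates -/
  output : Fin n → G

attribute [instance] Circuit.fin

variable {n : ℕ}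

/-- The number of additions: a linear combination of `f` values needs `f - 1` additions; scalar
multiplications are free. -/
def Circuit.additions (C : Circuit n) : ℕ := ∑ g, ((C.args g).card - 1)

/-- `v g` is the vector of coefficients of the linear form computed by the gate `g`. -/
structure Circuit.Forms (C : Circuit n) (v : C.G → Fin n → ℂ) : Prop where
  input : ∀ j, v (C.input j) = Pi.single j 1
  gate : ∀ g, (∀ j, g ≠ C.input j) → v g = ∑ u ∈ C.args g, C.coef g u • v u

/-- The circuit computes the linear map `x ↦ M x`: output `k` computes the form `M k`. -/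
def Circuit.Computes (C : Circuit n) (M : Matrix (Fin n) (Fin n) ℂ) : Prop :=
  ∃ v, C.Forms v ∧ ∀ k, v (C.output k) = M k

/-- The unnormalized discrete Fourier matrix `(ζ ^ (j k))`, `ζ = exp (2 π i / n)`. -/
noncomputable def dft (n : ℕ) : Matrix (Fin n) (Fin n) ℂ :=
  fun k j => Complex.exp (2 * Real.pi * Complex.I / n) ^ ((k : ℕ) * j)

/-- Translation of the indices by `r`. -/
def rot (r : ℕ) (j : Fin n) : Fin n := ⟨(j + r) % n, Nat.mod_lt _ (Fin.pos j)⟩

/-- The permutation `π` of the gates is a symmetry of the graph of the circuit. There is no
condition on the coefficients. -/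
def Circuit.IsSymm (C : Circuit n) (π : Equiv.Perm C.G) : Prop :=
  ∀ g u, π u ∈ C.args (π g) ↔ u ∈ C.args g

/-- The graph of the circuit has a symmetry which rotates the inputs by `r` and the outputs by
`s`: input `j` is mapped to input `j + r` and output `k` to output `k + s` (modulo `n`).
Translations `x_j ↦ x_{j+1}` correspond to `r = 1`, `s = 0`, and modulations `x_j ↦ ζ ^ j x_j`
to `r = 0`, `s = 1`. -/
def Circuit.Symmetric (C : Circuit n) (r s : ℕ) : Prop :=
  ∃ π : Equiv.Perm C.G, C.IsSymm π ∧
    (∀ j, π (C.input j) = C.input (rot r j)) ∧ ∀ k, π (C.output k) = C.output (rot s k)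

/-- The circuit itself is equivariant under the translation `x_j ↦ x_{j+1}`: a permutation `π` of
the gates preserves the graph, maps input `j` to input `j + 1`, fixes the outputs, and the gate
`π g` computes, up to a nonzero factor, the translate of the form computed by `g`. -/
def Circuit.Equivariant (C : Circuit n) : Prop :=
  ∃ (π : Equiv.Perm C.G) (v : C.G → Fin n → ℂ) (c : C.G → ℂ), C.Forms v ∧ C.IsSymm π ∧
    (∀ j, π (C.input j) = C.input (rot 1 j)) ∧ (∀ k, π (C.output k) = C.output k) ∧
    ∀ g, c g ≠ 0 ∧ ∀ j, v (π g) (rot 1 j) = c g * v g j

/-- The order of `r` modulo `n`. -/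
def ord (n r : ℕ) : ℕ := n / n.gcd r

/-- `∑ (p - 1)` over the prime factors `p` of `m`, with multiplicity. -/
def weight (m : ℕ) : ℕ := (m.primeFactorsList.map (fun p => p - 1)).sum

end Vale.Agent.P344.Inv
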