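import Vale.Agent.P344.H880.InvLower

/-!
# P344: the lower bound for a finite group of symmetries
-/

namespace Vale.Agent.P344.Inv

open Finset

theorem logb_le_sub_one {f : ℕ} (hf : f ≠ 0) : Real.logb 2 f ≤ (f - 1 : ℕ) := by
  have h0 : (0 : ℝ) < f := by exact_mod_cast Nat.pos_of_ne_zero hf
  rw [Real.logb_le_iff_le_rpow (by norm_num) h0, Real.rpow_natCast]
  have h1 : f - 1 < 2 ^ (f - 1) := Nat.lt_two_pow_self
  have h2 : f ≤ 2 ^ (f - 1) := by omega
  exact_mod_cast h2

/-- the weight of the threshold `T` -/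
noncomputable def om (T : ℕ) : ℝ := Real.logb 2 (T + 1 : ℕ) - Real.logb 2 T

theorem om_nonneg {T : ℕ} (hT : 1 ≤ T) : 0 ≤ om T := by
  unfold om
  rw [sub_nonneg]
  refine Real.logb_le_logb_of_le (by norm_num) (by exact_mod_cast hT) ?_
  exact_mod_cast Nat.le_succ T

theorem sum_om {a b : ℕ} (hab : a ≤ b) :
    ∑ T ∈ Ico a b, om T = Real.logb 2 b - Real.logb 2 a := by
  induction b, hab using Nat.le_induction with
  | base => simp
  | succ b hb ih =>
    rw [Finset.sum_Ico_succ_top hb, ih, om]
    ring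

section

variable {n : ℕ} {C : Circuit n} {K : Subgroup (Equiv.Perm C.G)}

open Classical in
/-- the orbit of a gate -/
noncomputable def orb (K : Subgroup (Equiv.Perm C.G)) (g : C.G) : Finset C.G :=
  univ.filter fun g' => ∃ π ∈ K, π g = g'

theorem mem_orb {g g' : C.G} : g' ∈ orb K g ↔ ∃ π ∈ K, π g = g' := by
  classical
  simp [orb]

theorem ncard_orbit (g : C.G) : (MulAction.orbit K g).ncard = (orb K g).card := by
  classical
  rw [← Set.ncard_coe_finset]
  congr 1
  ext g'
  rw [Finset.mem_coe, mem_orb, MulAction.mem_orbit_iff]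
  constructor
  · rintro ⟨π, rfl⟩
    exact ⟨π, π.2, rfl⟩
  · rintro ⟨π, hπ, rfl⟩
    exact ⟨⟨π, hπ⟩, rfl⟩

theorem orb_pos (g : C.G) : 1 ≤ (orb K g).card := by
  rw [Nat.one_le_iff_ne_zero, Ne, Finset.card_eq_zero]
  intro h
  have h1 : g ∈ orb K g := mem_orb.2 ⟨1, K.one_mem, rfl⟩
  rw [h] at h1
  exact absurd h1 (Finset.notMem_empty _)

theorem orb_le_of {R : C.G → Finset C.G} (hR : ∀ π ∈ K, ∀ g u, u ∈ R g → π u ∈ R (π g))
    {g u : C.G} (hu : u ∈ R g) : (orb K u).card ≤ (R g).card * (orb K g).card := by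
  classical
  have h1 : orb K u ⊆ (orb K g).biUnion R := by
    intro u' hu'
    obtain ⟨π, hπ, rfl⟩ := mem_orb.1 hu'
    rw [Finset.mem_biUnion]
    exact ⟨π g, mem_orb.2 ⟨π, hπ, rfl⟩, hR π hπ g u hu⟩
  have h2 : ∀ g' ∈ orb K g, (R g').card ≤ (R g).card := by
    intro g' hg'
    obtain ⟨π, hπ, rfl⟩ := mem_orb.1 hg'
    refine Finset.card_le_card_of_injOn (fun x => π.symm x) (fun x hx => ?_)
      (π.symm.injective.injOn)
    have h3 := hR π⁻¹ (K.inv_mem hπ) (π g) x hx
    have h4 : π⁻¹ (π g) = g := π.symm_apply_apply g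
    rw [h4] at h3
    exact h3
  calc (orb K u).card ≤ ((orb K g).biUnion R).card := Finset.card_le_card h1
    _ ≤ ∑ g' ∈ orb K g, (R g').card := Finset.card_biUnion_le
    _ ≤ ∑ _g' ∈ orb K g, (R g).card := Finset.sum_le_sum h2
    _ = (R g).card * (orb K g).card := by
      rw [Finset.sum_const, smul_eq_mul, Nat.mul_comm]

/-- The counting argument: every gate is charged for the levels of its orbit size. -/
theorem count_cuts {R : C.G → Finset C.G} (hR : ∀ π ∈ K, ∀ g u, u ∈ R g → π u ∈ R (π g))
    {a b : ℕ} (hb : 1 ≤ b) (hab : b ≤ a)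
    (hcut : ∀ T ∈ Ico b a, n ≤ (univ.filter fun g =>
      (orb K g).card ≤ T ∧ ∃ u ∈ R g, ¬ (orb K u).card ≤ T).card) :
    n * (Real.logb 2 a - Real.logb 2 b) ≤ ((∑ g, ((R g).card - 1) : ℕ) : ℝ) := by
  classical
  calc (n : ℝ) * (Real.logb 2 a - Real.logb 2 b) = ∑ T ∈ Ico b a, om T * n := by
        rw [← Finset.sum_mul, sum_om hab, mul_comm]
    _ ≤ ∑ T ∈ Ico b a, om T * (univ.filter fun g =>
        (orb K g).card ≤ T ∧ ∃ u ∈ R g, ¬ (orb K u).card ≤ T).card := by
        refine Finset.sum_le_sum fun T hT => mul_le_mul_of_nonneg_left ?_ ?_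
        · exact_mod_cast hcut T hT
        · exact om_nonneg (hb.trans (Finset.mem_Ico.1 hT).1)
    _ = ∑ T ∈ Ico b a, ∑ g, if (orb K g).card ≤ T ∧ ∃ u ∈ R g, ¬ (orb K u).card ≤ T
        then om T else 0 := by
        refine Finset.sum_congr rfl fun T _ => ?_
        rw [← Finset.sum_filter, Finset.sum_const, nsmul_eq_mul, mul_comm]
    _ = ∑ g, ∑ T ∈ Ico b a, if (orb K g).card ≤ T ∧ ∃ u ∈ R g, ¬ (orb K u).card ≤ T
        then om T else 0 := Finset.sum_comm
    _ ≤ ∑ g, (((R g).card - 1 : ℕ) : ℝ) := by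
        refine Finset.sum_le_sum fun g _ => ?_
        rw [← Finset.sum_filter]
        rcases Nat.eq_zero_or_pos (R g).card with h0 | h0
        · rw [Finset.filter_false_of_mem, Finset.sum_empty]
          · positivity
          · rintro T - ⟨-, u, hu, -⟩
            rw [Finset.card_eq_zero] at h0
            rw [h0] at hu
            exact absurd hu (Finset.notMem_empty _)
        · have hog := orb_pos (K := K) g
          have hle : (orb K g).card ≤ (R g).card * (orb K g).card :=
            Nat.le_mul_of_pos_left _ h0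
          have hsub : ((Ico b a).filter fun T =>
              (orb K g).card ≤ T ∧ ∃ u ∈ R g, ¬ (orb K u).card ≤ T) ⊆
              Ico (orb K g).card ((R g).card * (orb K g).card) := by
            intro T hT
            rw [Finset.mem_filter] at hT
            obtain ⟨-, h1, u, hu, h2⟩ := hT
            have h3 := orb_le_of hR hu
            rw [Finset.mem_Ico]
            omega
          calc _ ≤ ∑ T ∈ Ico (orb K g).card ((R g).card * (orb K g).card), om T := by
                refine Finset.sum_le_sum_of_subset_of_nonneg hsub fun T hT _ => ?_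
                exact om_nonneg (hog.trans (Finset.mem_Ico.1 hT).1)
            _ = Real.logb 2 (R g).card := by
                rw [sum_om hle]
                push_cast
                rw [Real.logb_mul]
                · ring
                · exact_mod_cast h0.ne'
                · exact_mod_cast (by omega : (orb K g).card ≠ 0)
            _ ≤ _ := logb_le_sub_one h0.ne'
    _ = ((∑ g, ((R g).card - 1) : ℕ) : ℝ) := by
        push_cast
        rfl

/-- **The lower bound for a group of symmetries**: large orbits of inputs. -/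
theorem lower_group_in (C : Circuit n) {M : Matrix (Fin n) (Fin n) ℂ} (hM : M.det ≠ 0)
    (hC : C.Computes M) (K : Subgroup (Equiv.Perm C.G)) (hK : ∀ π ∈ K, C.IsSymm π)
    {a b : ℕ} (hb : 1 ≤ b) (hin : ∀ j, a ≤ (MulAction.orbit K (C.input j)).ncard)
    (hout' : ∀ k, (MulAction.orbit K (C.output k)).ncard ≤ b) :
    n * (Real.logb 2 a - Real.logb 2 b) ≤ C.additions := by
  classical
  obtain ⟨v, hv, hout⟩ := hC
  rcases le_total a b with hab | hab
  · have h1 : (n : ℝ) * (Real.logb 2 a - Real.logb 2 b) ≤ 0 := by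
      refine mul_nonpos_of_nonneg_of_nonpos (Nat.cast_nonneg n) ?_
      rw [sub_nonpos]
      rcases Nat.eq_zero_or_pos a with ha | ha
      · rw [ha, Nat.cast_zero, Real.logb_zero]
        exact Real.logb_nonneg (by norm_num) (by exact_mod_cast hb)
      · exact Real.logb_le_logb_of_le (by norm_num) (by exact_mod_cast ha) (by exact_mod_cast hab)
    exact h1.trans (Nat.cast_nonneg _)
  refine count_cuts (R := C.args) (fun π hπ g u hu => (hK π hπ g u).2 hu) hb hab fun T hT => ?_
  rw [Finset.mem_Ico] at hT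
  refine card_cut C hv hM hout (fun g => (orb K g).card ≤ T) (fun j => ?_) (fun k => ?_)
  · have h1 := hin j
    rw [ncard_orbit] at h1
    omega
  · have h1 := hout' k
    rw [ncard_orbit] at h1
    omega

theorem Rel.group (hK : ∀ π ∈ K, C.IsSymm π)
    (hfix : ∀ π ∈ K, ∀ k, ∃ l, π (C.output k) = C.output l) {π : Equiv.Perm C.G} (hπ : π ∈ K)
    {g : C.G} (h : Rel C g) : Rel C (π g) := by
  induction h with
  | out k =>
    obtain ⟨l, hl⟩ := hfix π hπ k
    rw [hl]
    exact Rel.out _
  | arg _ hu ih => exact Rel.arg ih ((hK π hπ _ _).2 hu)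

/-- **The lower bound for a group of symmetries**: large orbits of outputs. -/
theorem lower_group_out (C : Circuit n) {M : Matrix (Fin n) (Fin n) ℂ} (hM : M.det ≠ 0)
    (hC : C.Computes M) (K : Subgroup (Equiv.Perm C.G)) (hK : ∀ π ∈ K, C.IsSymm π)
    (hfix : ∀ π ∈ K, ∀ k, ∃ l, π (C.output k) = C.output l)
    {a b : ℕ} (hb : 1 ≤ b) (hin : ∀ j, (MulAction.orbit K (C.input j)).ncard ≤ b)
    (hout' : ∀ k, a ≤ (MulAction.orbit K (C.output k)).ncard) :
    n * (Real.logb 2 a - Real.logb 2 b) ≤ C.additions := by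
  classical
  obtain ⟨v, hv, hout⟩ := hC
  rcases le_total a b with hab | hab
  · have h1 : (n : ℝ) * (Real.logb 2 a - Real.logb 2 b) ≤ 0 := by
      refine mul_nonpos_of_nonneg_of_nonpos (Nat.cast_nonneg n) ?_
      rw [sub_nonpos]
      rcases Nat.eq_zero_or_pos a with ha | ha
      · rw [ha, Nat.cast_zero, Real.logb_zero]
        exact Real.logb_nonneg (by norm_num) (by exact_mod_cast hb)
      · exact Real.logb_le_logb_of_le (by norm_num) (by exact_mod_cast ha) (by exact_mod_cast hab)
    exact h1.trans (Nat.cast_nonneg _)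
  have h2 : ((∑ u, ((readers C u).card - 1) : ℕ) : ℝ) ≤ C.additions := by
    exact_mod_cast sum_readers_le C hv hM hout
  refine le_trans (count_cuts (K := K) (R := readers C) (fun π hπ g u hu => ?_) hb hab
    fun T hT => ?_) h2
  · rw [mem_readers] at hu ⊢
    exact ⟨hu.1.group hK hfix hπ, (hK π hπ _ _).2 hu.2⟩
  · rw [Finset.mem_Ico] at hT
    set B := univ.filter fun g => (orb K g).card ≤ T ∧ ∃ u ∈ readers C g, ¬ (orb K u).card ≤ T
      with hB
    refine le_trans (le_card_of_span hM (B.image v) fun k => ?_) Finset.card_image_le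
    rw [← hout k]
    have h1 := span_cut' C hv (fun g => (orb K g).card ≤ T) (fun j => by
        have h1 := hin j
        rw [ncard_orbit] at h1
        omega)
      (C.output k) (Rel.out k) (by
        have h1 := hout' k
        rw [ncard_orbit] at h1
        omega)
    convert h1 using 3
    rw [Finset.coe_image]
    congr 1
    ext g
    simp [hB]

end

end Vale.Agent.P344.Inv
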