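import Vale.Agent.P344.H880.InvDefs

/-!
# P344: the lower bound for circuits with translation invariant graph
-/

namespace Vale.Agent.P344.Inv

/-! ### The weight -/

theorem weight_one : weight 1 = 0 := by simp [weight]

theorem weight_mul {a b : ℕ} (ha : a ≠ 0) (hb : b ≠ 0) :
    weight (a * b) = weight a + weight b := by
  unfold weight
  rw [((Nat.perm_primeFactorsList_mul ha hb).map _).sum_eq, List.map_append, List.sum_append]

theorem weight_prime {p : ℕ} (hp : p.Prime) : weight p = p - 1 := by
  simp [weight, Nat.primeFactorsList_prime hp]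

theorem weight_le (t : ℕ) : weight t ≤ t - 1 := by
  induction t using Nat.recOnMul with
  | zero => simp [weight]
  | one => simp [weight]
  | prime p hp => rw [weight_prime hp]
  | mul a b ha hb =>
    rcases Nat.eq_zero_or_pos a with rfl | ha0
    · simpa using ha
    rcases Nat.eq_zero_or_pos b with rfl | hb0
    · simpa using hb
    rw [weight_mul ha0.ne' hb0.ne']
    have h1 : a + b ≤ a * b + 1 := by nlinarith
    omega

theorem weight_mono {a b : ℕ} (h : a ∣ b) (hb : b ≠ 0) : weight a ≤ weight b := by
  obtain ⟨c, rfl⟩ := h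
  rw [weight_mul (left_ne_zero_of_mul hb) (right_ne_zero_of_mul hb)]
  exact Nat.le_add_right _ _

/-! ### Periods of gates -/

open Function

section

variable {G : Type} [Fintype G] {args : G → Finset G} (π : Equiv.Perm G)

theorem minimalPeriod_pos' (g : G) : 0 < minimalPeriod π g :=
  minimalPeriod_pos_of_mem_periodicPts (π.injective.mem_periodicPts g)

omit [Fintype G] in
theorem iterate_mem {π : Equiv.Perm G} (hπ : ∀ g u, π u ∈ args (π g) ↔ u ∈ args g) (m : ℕ) (g u : G) :
    π^[m] u ∈ args (π^[m] g) ↔ u ∈ args g := by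
  induction m with
  | zero => rfl
  | succ m ih => rw [iterate_succ_apply', iterate_succ_apply', hπ, ih]

/-- The orbit of an argument under the stabiliser of the gate has at most as many elements as the
gate has arguments. -/
theorem div_gcd_le {π : Equiv.Perm G} (hπ : ∀ g u, π u ∈ args (π g) ↔ u ∈ args g) {g u : G}
    (hu : u ∈ args g) :
    minimalPeriod π u / (minimalPeriod π u).gcd (minimalPeriod π g) ≤ (args g).card := by
  classical
  set r := minimalPeriod π g with hr
  have hr0 : 0 < r := minimalPeriod_pos' π g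
  have h1 : minimalPeriod (π^[r]) u = minimalPeriod π u / (minimalPeriod π u).gcd r :=
    minimalPeriod_iterate_eq_div_gcd hr0.ne'
  rw [← h1]
  set t := minimalPeriod (π^[r]) u with ht
  have hmem : ∀ i : ℕ, (π^[r])^[i] u ∈ args g := by
    intro i
    rw [← iterate_mul]
    have h2 : π^[r * i] g = g := by
      have : IsPeriodicPt π (r * i) g := (isPeriodicPt_minimalPeriod π g).mul_const i
      exact this
    rw [← h2, iterate_mem hπ]
    exact hu
  have hinj : Set.InjOn (fun i : ℕ => (π^[r])^[i] u) (Set.Iio t) :=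
    iterate_injOn_Iio_minimalPeriod
  calc t = (Finset.range t).card := (Finset.card_range t).symm
    _ ≤ (args g).card := by
      refine Finset.card_le_card_of_injOn (fun i : ℕ => (π^[r])^[i] u) (fun i _ => hmem i) ?_
      intro i hi j hj hij
      exact hinj (by simpa using hi) (by simpa using hj) hij

/-- The weight of the period, relative to `N`. -/
noncomputable def lev (N : ℕ) (g : G) : ℕ := weight (N.gcd (minimalPeriod π g))

theorem lev_le {π : Equiv.Perm G} (hπ : ∀ g u, π u ∈ args (π g) ↔ u ∈ args g) {N : ℕ}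
    (hN : N ≠ 0) {g u : G} (hu : u ∈ args g) :
    lev π N u ≤ lev π N g + ((args g).card - 1) := by
  have h0 := div_gcd_le hπ hu
  set a := minimalPeriod π u with ha
  set b := minimalPeriod π g with hb
  have ha0 : 0 < a := minimalPeriod_pos' π u
  have hb0 : 0 < b := minimalPeriod_pos' π g
  set q := a.gcd b with hq
  set t := a / q with ht
  have hq0 : 0 < q := Nat.gcd_pos_of_pos_left _ ha0
  have hat : a = q * t := (Nat.mul_div_cancel' (Nat.gcd_dvd_left a b)).symm
  have ht0 : t ≠ 0 := by
    intro h
    rw [h, Nat.mul_zero] at hat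
    omega
  have hd0 : N.gcd b ≠ 0 := Nat.gcd_ne_zero_left hN
  have h1 : N.gcd a ∣ N.gcd b * t := by
    rw [hat]
    refine (Nat.gcd_mul_right_dvd_mul_gcd N q t).trans ?_
    exact Nat.mul_dvd_mul (Nat.gcd_dvd_gcd_of_dvd_right _ (Nat.gcd_dvd_right a b))
      (Nat.gcd_dvd_right _ _)
  have h2 : weight (N.gcd a) ≤ weight (N.gcd b) + weight t := by
    rw [← weight_mul hd0 ht0]
    exact weight_mono h1 (Nat.mul_ne_zero hd0 ht0)
  have h3 := weight_le t
  show weight (N.gcd a) ≤ weight (N.gcd b) + _
  omega

end

/-! ### The cut argument -/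

variable {n : ℕ}

theorem span_cut (C : Circuit n) {v : C.G → Fin n → ℂ} (hv : C.Forms v) (A : C.G → Prop)
    (hA : ∀ j, ¬ A (C.input j)) :
    ∀ g, A g → v g ∈ Submodule.span ℂ (v '' {g | A g ∧ ∃ u ∈ C.args g, ¬ A u}) := by
  have key : ∀ m : ℕ, ∀ g, C.time g = m → A g →
      v g ∈ Submodule.span ℂ (v '' {g | A g ∧ ∃ u ∈ C.args g, ¬ A u}) := by
    intro m
    induction m using Nat.strong_induction_on with
    | _ m ih =>
      intro g hg hAg
      by_cases h : ∃ u ∈ C.args g, ¬ A u
      · exact Submodule.subset_span ⟨g, ⟨hAg, h⟩, rfl⟩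
      · push Not at h
        have hne : ∀ j, g ≠ C.input j := fun j hj => hA j (hj ▸ hAg)
        rw [hv.gate g hne]
        refine Submodule.sum_mem _ fun u hu => Submodule.smul_mem _ _ ?_
        exact ih (C.time u) (hg ▸ C.time_lt g u hu) u rfl (h u hu)
  exact fun g => key _ g rfl

theorem card_cut (C : Circuit n) {v : C.G → Fin n → ℂ} (hv : C.Forms v)
    {M : Matrix (Fin n) (Fin n) ℂ} (hM : M.det ≠ 0) (hout : ∀ k, v (C.output k) = M k)
    (A : C.G → Prop) (hA : ∀ j, ¬ A (C.input j)) (hB : ∀ k, A (C.output k))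
    [DecidablePred fun g => A g ∧ ∃ u ∈ C.args g, ¬ A u] :
    n ≤ (Finset.univ.filter fun g => A g ∧ ∃ u ∈ C.args g, ¬ A u).card := by
  classical
  set B : Finset C.G := Finset.univ.filter fun g => A g ∧ ∃ u ∈ C.args g, ¬ A u with hBdef
  have hli : LinearIndependent ℂ (fun k => M k) :=
    Matrix.linearIndependent_rows_of_det_ne_zero hM
  have hspan : ∀ k, M k ∈ Submodule.span ℂ ((B.image v : Finset (Fin n → ℂ)) : Set (Fin n → ℂ)) := by
    intro k
    rw [← hout k]
    have h := span_cut C hv A hA _ (hB k)
    convert h using 3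
    rw [Finset.coe_image]
    congr 1
    ext g
    simp [hBdef]
  have h1 : Set.range (fun k => M k) ⊆
      (Submodule.span ℂ ((B.image v : Finset (Fin n → ℂ)) : Set (Fin n → ℂ)) : Set (Fin n → ℂ)) := by
    rintro _ ⟨k, rfl⟩
    exact hspan k
  have h2 : n ≤ (B.image v).card := by
    have h3 := hli.fintype_card_le_finrank
    have h4 : Module.finrank ℂ (Submodule.span ℂ (Set.range fun k => M k)) = n := by
      rw [finrank_span_eq_card hli, Fintype.card_fin]
    have h5 : Submodule.span ℂ (Set.range fun k => M k) ≤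
        Submodule.span ℂ ((B.image v : Finset (Fin n → ℂ)) : Set (Fin n → ℂ)) :=
      Submodule.span_le.2 h1
    calc n = Module.finrank ℂ (Submodule.span ℂ (Set.range fun k => M k)) := h4.symm
      _ ≤ Module.finrank ℂ (Submodule.span ℂ ((B.image v : Finset (Fin n → ℂ)) : Set (Fin n → ℂ))) :=
        Submodule.finrank_mono h5
      _ ≤ (B.image v).card := finrank_span_finset_le_card _
  exact h2.trans Finset.card_image_le

theorem rot_iterate {r : ℕ} (m : ℕ) (j : Fin n) : (rot r)^[m] j = rot (r * m) j := by
  induction m with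
  | zero =>
    apply Fin.ext
    simp [rot, Nat.mod_eq_of_lt j.isLt]
  | succ m ih =>
    rw [iterate_succ_apply', ih]
    apply Fin.ext
    simp only [rot, Nat.mod_add_mod]
    ring_nf

theorem iterate_conj {G : Type} {π : Equiv.Perm G} {r : ℕ} {f : Fin n → G}
    (h : ∀ j, π (f j) = f (rot r j)) (m : ℕ) (j : Fin n) : π^[m] (f j) = f (rot (r * m) j) := by
  rw [← rot_iterate]
  induction m with
  | zero => rfl
  | succ m ih => rw [iterate_succ_apply', iterate_succ_apply', ih, h]

theorem ord_ne_zero (hn : 0 < n) (r : ℕ) : ord n r ≠ 0 :=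
  (Nat.div_pos (Nat.le_of_dvd hn (Nat.gcd_dvd_left n r)) (Nat.gcd_pos_of_pos_left _ hn)).ne'

/-- If the gates `f j` are different, their period is the order of `r`. -/
theorem ord_dvd {G : Type} {π : Equiv.Perm G} {r : ℕ} {f : Fin n → G}
    (hf : Function.Injective f) (h : ∀ j, π (f j) = f (rot r j)) (j : Fin n) :
    ord n r ∣ minimalPeriod π (f j) := by
  have hn : 0 < n := j.pos
  have hg0 : 0 < n.gcd r := Nat.gcd_pos_of_pos_left _ hn
  set m := minimalPeriod π (f j) with hm
  have h1 : π^[m] (f j) = f j := isPeriodicPt_minimalPeriod π _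
  rw [iterate_conj h] at h1
  have h2 := congrArg Fin.val (hf h1)
  simp only [rot] at h2
  have h3 : n ∣ r * m := by
    have h4 : ((j : ℕ) + r * m) ≡ (j : ℕ) + 0 [MOD n] := by
      unfold Nat.ModEq
      rw [h2, Nat.add_zero, Nat.mod_eq_of_lt j.isLt]
    exact (Nat.modEq_zero_iff_dvd).1 (Nat.ModEq.add_left_cancel' _ h4)
  have hcop : Nat.Coprime (ord n r) (r / n.gcd r) := Nat.coprime_div_gcd_div_gcd hg0
  have h5 : ord n r ∣ (r / n.gcd r) * m := by
    have e1 : n = ord n r * n.gcd r := (Nat.div_mul_cancel (Nat.gcd_dvd_left n r)).symm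
    have e2 : r * m = (r / n.gcd r) * m * n.gcd r := by
      have := Nat.div_mul_cancel (Nat.gcd_dvd_right n r)
      calc r * m = (r / n.gcd r * n.gcd r) * m := by rw [this]
        _ = _ := by ring
    have h6 : ord n r * n.gcd r ∣ (r / n.gcd r) * m * n.gcd r := by
      rw [← e2, ← e1]
      exact h3
    exact Nat.dvd_of_mul_dvd_mul_right hg0 h6
  exact hcop.dvd_of_dvd_mul_left h5

theorem dvd_ord {G : Type} {π : Equiv.Perm G} {r : ℕ} {f : Fin n → G}
    (h : ∀ j, π (f j) = f (rot r j)) (j : Fin n) : minimalPeriod π (f j) ∣ ord n r := by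
  refine IsPeriodicPt.minimalPeriod_dvd ?_
  show π^[ord n r] (f j) = f j
  rw [iterate_conj h]
  congr 1
  apply Fin.ext
  simp only [rot]
  have h1 : n ∣ r * ord n r := by
    have e1 : n = n.gcd r * ord n r := (Nat.mul_div_cancel' (Nat.gcd_dvd_left n r)).symm
    have e2 : n.gcd r * ord n r ∣ r * ord n r := Nat.mul_dvd_mul_right (Nat.gcd_dvd_right n r) _
    rw [← e1] at e2
    exact e2
  obtain ⟨c, hc⟩ := h1
  rw [hc, Nat.add_mul_mod_self_left, Nat.mod_eq_of_lt j.isLt]

/-- **The lower bound**, from the symmetry of the inputs. -/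
theorem lower_in (C : Circuit n) {M : Matrix (Fin n) (Fin n) ℂ} (hM : M.det ≠ 0)
    (hC : C.Computes M) {r s : ℕ} (hr : C.Symmetric r s) :
    n * weight (ord n r) ≤ C.additions + n * weight ((ord n r).gcd (ord n s)) := by
  classical
  obtain ⟨v, hv, hout⟩ := hC
  obtain ⟨π, hπ, hin, hfix⟩ := hr
  rcases Nat.eq_zero_or_pos n with hn | hn
  · have h0 : n * weight (ord n r) = 0 := by
      rw [Nat.mul_eq_zero]
      exact Or.inl hn
    omega
  set N := ord n r with hNdef
  have hN0 : N ≠ 0 := ord_ne_zero hn r
  set w := weight (N.gcd (ord n s)) with hw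
  have hlin : ∀ j, lev π N (C.input j) = weight N := by
    intro j
    rw [lev, Nat.gcd_eq_left (ord_dvd C.input_inj hin j)]
  have hlout : ∀ k, lev π N (C.output k) ≤ w := by
    intro k
    exact weight_mono (Nat.gcd_dvd_gcd_of_dvd_right _ (dvd_ord hfix k)) (Nat.gcd_ne_zero_left hN0)
  -- the cuts
  have hcut : ∀ τ ∈ Finset.Ioc w (weight N), n ≤ (Finset.univ.filter fun g =>
      lev π N g < τ ∧ ∃ u ∈ C.args g, ¬ lev π N u < τ).card := by
    intro τ hτ
    rw [Finset.mem_Ioc] at hτ
    refine card_cut C hv hM hout (fun g => lev π N g < τ) (fun j => ?_) (fun k => ?_)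
    · simp only [hlin j]
      omega
    · exact (hlout k).trans_lt hτ.1
  have key : n * (weight N - w) ≤ C.additions := by
    calc n * (weight N - w) = ∑ _τ ∈ Finset.Ioc w (weight N), n := by
          rw [Finset.sum_const, Nat.card_Ioc, smul_eq_mul, Nat.mul_comm]
      _ ≤ ∑ τ ∈ Finset.Ioc w (weight N), (Finset.univ.filter fun g =>
            lev π N g < τ ∧ ∃ u ∈ C.args g, ¬ lev π N u < τ).card := Finset.sum_le_sum hcut
      _ = ∑ g, ((Finset.Ioc w (weight N)).filter fun τ =>
            lev π N g < τ ∧ ∃ u ∈ C.args g, ¬ lev π N u < τ).card := by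
          simp only [Finset.card_filter]
          exact Finset.sum_comm
      _ ≤ C.additions := by
          refine Finset.sum_le_sum fun g _ => ?_
          have hsub : ((Finset.Ioc w (weight N)).filter fun τ =>
              lev π N g < τ ∧ ∃ u ∈ C.args g, ¬ lev π N u < τ) ⊆
              Finset.Ioc (lev π N g) (lev π N g + ((C.args g).card - 1)) := by
            intro τ hτ
            rw [Finset.mem_filter] at hτ
            obtain ⟨-, h1, u, hu, h2⟩ := hτ
            have h3 := lev_le hπ hN0 hu
            rw [Finset.mem_Ioc]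
            omega
          refine (Finset.card_le_card hsub).trans ?_
          rw [Nat.card_Ioc]
          omega
  rw [Nat.mul_sub] at key
  omega

/-! ### The dual bound -/

/-- The gates on which an output depends. -/
inductive Rel (C : Circuit n) : C.G → Prop
  | out (k) : Rel C (C.output k)
  | arg {g u} : Rel C g → u ∈ C.args g → Rel C u

theorem Rel.perm {C : Circuit n} {π : Equiv.Perm C.G} {s : ℕ}
    (hπ : ∀ g u, π u ∈ C.args (π g) ↔ u ∈ C.args g)
    (hfix : ∀ k, π (C.output k) = C.output (rot s k)) {g : C.G} (h : Rel C g) : Rel C (π g) := by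
  induction h with
  | out k =>
    rw [hfix]
    exact Rel.out _
  | arg _ hu ih => exact Rel.arg ih ((hπ _ _).2 hu)

theorem Rel.iter {C : Circuit n} {π : Equiv.Perm C.G} {s : ℕ}
    (hπ : ∀ g u, π u ∈ C.args (π g) ↔ u ∈ C.args g)
    (hfix : ∀ k, π (C.output k) = C.output (rot s k)) {g : C.G} (h : Rel C g) (m : ℕ) :
    Rel C (π^[m] g) := by
  induction m with
  | zero => exact h
  | succ m ih =>
    rw [iterate_succ_apply']
    exact ih.perm hπ hfix

open Classical in
/-- The relevant gates which read `u`. -/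
noncomputable def readers (C : Circuit n) (u : C.G) : Finset C.G :=
  Finset.univ.filter fun g => Rel C g ∧ u ∈ C.args g

theorem mem_readers {C : Circuit n} {u g : C.G} :
    g ∈ readers C u ↔ Rel C g ∧ u ∈ C.args g := by
  classical
  simp [readers]

/-- The orbit of a reader under the stabiliser of the gate. -/
theorem div_gcd_le' {C : Circuit n} {π : Equiv.Perm C.G} {s : ℕ}
    (hπ : ∀ g u, π u ∈ C.args (π g) ↔ u ∈ C.args g)
    (hfix : ∀ k, π (C.output k) = C.output (rot s k)) {g u : C.G}
    (hg : g ∈ readers C u) :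
    minimalPeriod π g / (minimalPeriod π g).gcd (minimalPeriod π u) ≤ (readers C u).card := by
  classical
  set r := minimalPeriod π u with hr
  have hr0 : 0 < r := minimalPeriod_pos' π u
  have h1 : minimalPeriod (π^[r]) g = minimalPeriod π g / (minimalPeriod π g).gcd r :=
    minimalPeriod_iterate_eq_div_gcd hr0.ne'
  rw [← h1]
  set t := minimalPeriod (π^[r]) g with ht
  have hmem : ∀ i : ℕ, (π^[r])^[i] g ∈ readers C u := by
    intro i
    rw [← iterate_mul]
    have h2 : π^[r * i] u = u := by
      have : IsPeriodicPt π (r * i) u := (isPeriodicPt_minimalPeriod π u).mul_const i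
      exact this
    rw [mem_readers] at hg ⊢
    refine ⟨hg.1.iter hπ hfix _, ?_⟩
    have h3 := (iterate_mem hπ (r * i) g u).2 hg.2
    rwa [h2] at h3
  have hinj : Set.InjOn (fun i : ℕ => (π^[r])^[i] g) (Set.Iio t) :=
    iterate_injOn_Iio_minimalPeriod
  calc t = (Finset.range t).card := (Finset.card_range t).symm
    _ ≤ (readers C u).card := by
      refine Finset.card_le_card_of_injOn (fun i : ℕ => (π^[r])^[i] g) (fun i _ => hmem i) ?_
      intro i hi j hj hij
      exact hinj (by simpa using hi) (by simpa using hj) hij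

theorem lev_le' {C : Circuit n} {π : Equiv.Perm C.G} {s : ℕ}
    (hπ : ∀ g u, π u ∈ C.args (π g) ↔ u ∈ C.args g)
    (hfix : ∀ k, π (C.output k) = C.output (rot s k)) {N : ℕ}
    (hN : N ≠ 0) {g u : C.G} (hg : g ∈ readers C u) :
    lev π N g ≤ lev π N u + ((readers C u).card - 1) := by
  have h0 := div_gcd_le' hπ hfix hg
  set a := minimalPeriod π g with ha
  set b := minimalPeriod π u with hb
  have ha0 : 0 < a := minimalPeriod_pos' π g
  have hb0 : 0 < b := minimalPeriod_pos' π u
  set q := a.gcd b with hq
  set t := a / q with ht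
  have hq0 : 0 < q := Nat.gcd_pos_of_pos_left _ ha0
  have hat : a = q * t := (Nat.mul_div_cancel' (Nat.gcd_dvd_left a b)).symm
  have ht0 : t ≠ 0 := by
    intro h
    rw [h, Nat.mul_zero] at hat
    omega
  have hd0 : N.gcd b ≠ 0 := Nat.gcd_ne_zero_left hN
  have h1 : N.gcd a ∣ N.gcd b * t := by
    rw [hat]
    refine (Nat.gcd_mul_right_dvd_mul_gcd N q t).trans ?_
    exact Nat.mul_dvd_mul (Nat.gcd_dvd_gcd_of_dvd_right _ (Nat.gcd_dvd_right a b))
      (Nat.gcd_dvd_right _ _)
  have h2 : weight (N.gcd a) ≤ weight (N.gcd b) + weight t := by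
    rw [← weight_mul hd0 ht0]
    exact weight_mono h1 (Nat.mul_ne_zero hd0 ht0)
  have h3 := weight_le t
  show weight (N.gcd a) ≤ weight (N.gcd b) + _
  omega

theorem le_card_of_span {M : Matrix (Fin n) (Fin n) ℂ} (hM : M.det ≠ 0) (S : Finset (Fin n → ℂ))
    (h : ∀ k, M k ∈ Submodule.span ℂ (S : Set (Fin n → ℂ))) : n ≤ S.card := by
  have hli : LinearIndependent ℂ (fun k => M k) :=
    Matrix.linearIndependent_rows_of_det_ne_zero hM
  have h1 : Set.range (fun k => M k) ⊆
      (Submodule.span ℂ (S : Set (Fin n → ℂ)) : Set (Fin n → ℂ)) := by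
    rintro _ ⟨k, rfl⟩
    exact h k
  have h4 : Module.finrank ℂ (Submodule.span ℂ (Set.range fun k => M k)) = n := by
    rw [finrank_span_eq_card hli, Fintype.card_fin]
  have h5 : Submodule.span ℂ (Set.range fun k => M k) ≤ Submodule.span ℂ (S : Set (Fin n → ℂ)) :=
    Submodule.span_le.2 h1
  calc n = Module.finrank ℂ (Submodule.span ℂ (Set.range fun k => M k)) := h4.symm
    _ ≤ Module.finrank ℂ (Submodule.span ℂ (S : Set (Fin n → ℂ))) := Submodule.finrank_mono h5
    _ ≤ S.card := finrank_span_finset_le_card _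

/-- The forms of the relevant gates outside `A` are spanned by the forms of the relevant gates in
`A` with a relevant reader outside `A`. -/
theorem span_cut' (C : Circuit n) {v : C.G → Fin n → ℂ} (hv : C.Forms v) (A : C.G → Prop)
    (hA : ∀ j, A (C.input j)) :
    ∀ g, Rel C g → ¬ A g →
      v g ∈ Submodule.span ℂ (v '' {u | A u ∧ ∃ g ∈ readers C u, ¬ A g}) := by
  have key : ∀ m : ℕ, ∀ g, C.time g = m → Rel C g → ¬ A g →
      v g ∈ Submodule.span ℂ (v '' {u | A u ∧ ∃ g ∈ readers C u, ¬ A g}) := by
    intro m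
    induction m using Nat.strong_induction_on with
    | _ m ih =>
      intro g hg hrel hAg
      have hne : ∀ j, g ≠ C.input j := fun j hj => hAg (hj ▸ hA j)
      rw [hv.gate g hne]
      refine Submodule.sum_mem _ fun u hu => Submodule.smul_mem _ _ ?_
      by_cases h : A u
      · exact Submodule.subset_span ⟨u, ⟨h, g, mem_readers.2 ⟨hrel, hu⟩, hAg⟩, rfl⟩
      · exact ih (C.time u) (hg ▸ C.time_lt g u hu) u rfl (Rel.arg hrel hu) h
  exact fun g => key _ g rfl

/-- All inputs are relevant. -/
theorem rel_input (C : Circuit n) {v : C.G → Fin n → ℂ} (hv : C.Forms v)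
    {M : Matrix (Fin n) (Fin n) ℂ} (hM : M.det ≠ 0) (hout : ∀ k, v (C.output k) = M k)
    (j : Fin n) : Rel C (C.input j) := by
  classical
  by_contra hj
  have key : ∀ m : ℕ, ∀ g, C.time g = m → Rel C g →
      v g ∈ Submodule.span ℂ (v '' {u | Rel C u ∧ ∃ i, u = C.input i}) := by
    intro m
    induction m using Nat.strong_induction_on with
    | _ m ih =>
      intro g hg hrel
      by_cases hi : ∃ i, g = C.input i
      · exact Submodule.subset_span ⟨g, ⟨hrel, hi⟩, rfl⟩
      · push Not at hi
        rw [hv.gate g hi]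
        refine Submodule.sum_mem _ fun u hu => Submodule.smul_mem _ _ ?_
        exact ih (C.time u) (hg ▸ C.time_lt g u hu) u rfl (Rel.arg hrel hu)
  set S : Finset (Fin n → ℂ) := (Finset.univ.erase j).image (fun i => v (C.input i)) with hS
  have h1 : ∀ k, M k ∈ Submodule.span ℂ (S : Set (Fin n → ℂ)) := by
    intro k
    rw [← hout k]
    refine Submodule.span_mono ?_ (key _ _ rfl (Rel.out k))
    rintro _ ⟨u, ⟨hu, i, rfl⟩, rfl⟩
    rw [hS, Finset.coe_image]
    refine ⟨i, ?_, rfl⟩
    simp only [Finset.coe_erase, Finset.coe_univ, Set.mem_sdiff, Set.mem_univ, true_and,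
      Set.mem_singleton_iff]
    rintro rfl
    exact hj hu
  have h2 := le_card_of_span hM S h1
  have h3 : S.card ≤ n - 1 := by
    refine Finset.card_image_le.trans ?_
    rw [Finset.card_erase_of_mem (Finset.mem_univ j), Finset.card_univ, Fintype.card_fin]
  have := j.pos
  omega

open Classical in
/-- The number of additions bounds the number of branchings. -/
theorem sum_readers_le (C : Circuit n) {v : C.G → Fin n → ℂ} (hv : C.Forms v)
    {M : Matrix (Fin n) (Fin n) ℂ} (hM : M.det ≠ 0) (hout : ∀ k, v (C.output k) = M k) :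
    ∑ u, ((readers C u).card - 1) ≤ C.additions := by
  -- `R` is the set of relevant gates
  set R : Finset C.G := Finset.univ.filter (Rel C) with hR
  have hmemR : ∀ g, g ∈ R ↔ Rel C g := fun g => by simp [hR]
  have e1 : ∑ u ∈ R, (readers C u).card = ∑ g ∈ R, (C.args g).card := by
    have h1 : ∀ u ∈ R, (readers C u).card = ∑ g ∈ R, if u ∈ C.args g then 1 else 0 := by
      intro u _
      rw [readers, Finset.card_filter, hR, Finset.sum_filter]
      refine Finset.sum_congr rfl fun g _ => ?_
      by_cases h2 : Rel C g <;> simp [h2]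
    have h2 : ∀ g ∈ R, (C.args g).card = ∑ u ∈ R, if u ∈ C.args g then 1 else 0 := by
      intro g hg
      rw [← Finset.card_filter]
      congr 1
      ext u
      rw [Finset.mem_filter]
      exact ⟨fun hu => ⟨(hmemR u).2 (Rel.arg ((hmemR g).1 hg) hu), hu⟩, fun hu => hu.2⟩
    rw [Finset.sum_congr rfl h1, Finset.sum_congr rfl h2, Finset.sum_comm]
  have e2 : ∀ u, ¬ Rel C u → (readers C u).card = 0 := by
    intro u hu
    rw [Finset.card_eq_zero, Finset.eq_empty_iff_forall_notMem]
    intro g hg
    rw [mem_readers] at hg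
    exact hu (Rel.arg hg.1 hg.2)
  have e3 : ∑ u, ((readers C u).card - 1) = ∑ u ∈ R, ((readers C u).card - 1) := by
    rw [hR, Finset.sum_filter]
    refine Finset.sum_congr rfl fun u _ => ?_
    by_cases h : Rel C u
    · rw [if_pos h]
    · rw [if_neg h, e2 u h]
      rfl
  have e4 : ∑ u ∈ R, ((readers C u).card - 1) + (R.filter fun u => (readers C u).card ≠ 0).card =
      ∑ u ∈ R, (readers C u).card := by
    rw [Finset.card_filter, ← Finset.sum_add_distrib]
    refine Finset.sum_congr rfl fun u _ => ?_
    split_ifs with h <;> omega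
  have e5 : ∑ g ∈ R, ((C.args g).card - 1) + (R.filter fun g => (C.args g).card ≠ 0).card =
      ∑ g ∈ R, (C.args g).card := by
    rw [Finset.card_filter, ← Finset.sum_add_distrib]
    refine Finset.sum_congr rfl fun u _ => ?_
    split_ifs with h <;> omega
  have e6 : ∑ g ∈ R, ((C.args g).card - 1) ≤ C.additions :=
    Finset.sum_le_sum_of_subset (Finset.subset_univ _)
  -- sources
  have e7 : n ≤ (R.filter fun g => ¬ (C.args g).card ≠ 0).card := by
    calc n = (Finset.univ.image C.input).card := by
          rw [Finset.card_image_of_injective _ C.input_inj, Finset.card_univ, Fintype.card_fin]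
      _ ≤ _ := by
        refine Finset.card_le_card fun g hg => ?_
        rw [Finset.mem_image] at hg
        obtain ⟨j, -, rfl⟩ := hg
        rw [Finset.mem_filter, hmemR]
        exact ⟨rel_input C hv hM hout j, by simp [C.input_args]⟩
  -- sinks
  have e8 : (R.filter fun u => ¬ (readers C u).card ≠ 0).card ≤ n := by
    calc _ ≤ (Finset.univ.image C.output).card := by
          refine Finset.card_le_card fun g hg => ?_
          rw [Finset.mem_filter, hmemR, not_not, Finset.card_eq_zero] at hg
          rw [Finset.mem_image]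
          obtain ⟨h1, h2⟩ := hg
          cases h1 with
          | out k => exact ⟨k, Finset.mem_univ _, rfl⟩
          | @arg g' _ h3 h4 =>
            have h5 : g' ∈ readers C g := mem_readers.2 ⟨h3, h4⟩
            rw [h2] at h5
            exact absurd h5 (Finset.notMem_empty _)
      _ ≤ n := Finset.card_image_le.trans (by rw [Finset.card_univ, Fintype.card_fin])
  have e9 := Finset.card_filter_add_card_filter_not (s := R) (fun g => (C.args g).card ≠ 0)
  have e10 := Finset.card_filter_add_card_filter_not (s := R) (fun u => (readers C u).card ≠ 0)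
  omega

/-- **The lower bound**, from the symmetry of the outputs. -/
theorem lower_out (C : Circuit n) {M : Matrix (Fin n) (Fin n) ℂ} (hM : M.det ≠ 0)
    (hC : C.Computes M) {r s : ℕ} (hr : C.Symmetric r s) :
    n * weight (ord n s) ≤ C.additions + n * weight ((ord n r).gcd (ord n s)) := by
  classical
  obtain ⟨v, hv, hout⟩ := hC
  obtain ⟨π, hπ, hin, hfix⟩ := hr
  rcases Nat.eq_zero_or_pos n with hn | hn
  · have h0 : n * weight (ord n s) = 0 := by
      rw [Nat.mul_eq_zero]
      exact Or.inl hn
    omega
  have hoinj : Function.Injective C.output := by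
    intro k l hkl
    have hli : LinearIndependent ℂ (fun k => M k) :=
      Matrix.linearIndependent_rows_of_det_ne_zero hM
    apply hli.injective
    simp only
    rw [← hout k, ← hout l, hkl]
  set N := ord n s with hNdef
  have hN0 : N ≠ 0 := ord_ne_zero hn s
  set w := weight ((ord n r).gcd N) with hw
  have hlout : ∀ k, lev π N (C.output k) = weight N := by
    intro k
    rw [lev, Nat.gcd_eq_left (ord_dvd hoinj hfix k)]
  have hlin : ∀ j, lev π N (C.input j) ≤ w := by
    intro j
    rw [lev, hw, Nat.gcd_comm (ord n r) N]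
    exact weight_mono (Nat.gcd_dvd_gcd_of_dvd_right _ (dvd_ord hin j)) (Nat.gcd_ne_zero_left hN0)
  -- the cuts
  have hcut : ∀ τ ∈ Finset.Ioc w (weight N), n ≤ (Finset.univ.filter fun u =>
      lev π N u < τ ∧ ∃ g ∈ readers C u, ¬ lev π N g < τ).card := by
    intro τ hτ
    rw [Finset.mem_Ioc] at hτ
    set B := Finset.univ.filter fun u => lev π N u < τ ∧ ∃ g ∈ readers C u, ¬ lev π N g < τ
      with hB
    refine le_trans (le_card_of_span hM (B.image v) fun k => ?_) Finset.card_image_le
    rw [← hout k]
    have h1 := span_cut' C hv (fun g => lev π N g < τ) (fun j => (hlin j).trans_lt hτ.1)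
      (C.output k) (Rel.out k) (by
        simp only [hlout k]
        omega)
    convert h1 using 3
    rw [Finset.coe_image]
    congr 1
    ext g
    simp [hB]
  have key : n * (weight N - w) ≤ C.additions := by
    calc n * (weight N - w) = ∑ _τ ∈ Finset.Ioc w (weight N), n := by
          rw [Finset.sum_const, Nat.card_Ioc, smul_eq_mul, Nat.mul_comm]
      _ ≤ ∑ τ ∈ Finset.Ioc w (weight N), (Finset.univ.filter fun u =>
            lev π N u < τ ∧ ∃ g ∈ readers C u, ¬ lev π N g < τ).card := Finset.sum_le_sum hcut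
      _ = ∑ u, ((Finset.Ioc w (weight N)).filter fun τ =>
            lev π N u < τ ∧ ∃ g ∈ readers C u, ¬ lev π N g < τ).card := by
          simp only [Finset.card_filter]
          exact Finset.sum_comm
      _ ≤ ∑ u, ((readers C u).card - 1) := by
          refine Finset.sum_le_sum fun u _ => ?_
          have hsub : ((Finset.Ioc w (weight N)).filter fun τ =>
              lev π N u < τ ∧ ∃ g ∈ readers C u, ¬ lev π N g < τ) ⊆
              Finset.Ioc (lev π N u) (lev π N u + ((readers C u).card - 1)) := by
            intro τ hτ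
            rw [Finset.mem_filter] at hτ
            obtain ⟨-, h1, g, hg, h2⟩ := hτ
            have h3 := lev_le' hπ hfix hN0 hg
            rw [Finset.mem_Ioc]
            omega
          refine (Finset.card_le_card hsub).trans ?_
          rw [Nat.card_Ioc]
          omega
      _ ≤ C.additions := sum_readers_le C hv hM hout
  rw [Nat.mul_sub] at key
  omega

end Vale.Agent.P344.Inv
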