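import Vale.Agent.P344.H880.InvLower

/-!
# P344: the mixed radix algorithm is equivariant and attains the lower bound
-/

namespace Vale.Agent.P344.Inv

variable {n : ℕ}

/-- The data carried by the induction. -/
structure Good (C : Circuit n) (π : Equiv.Perm C.G) (v : C.G → Fin n → ℂ) (s : C.G → ℂ) : Prop where
  forms : C.Forms v
  out : ∀ k, v (C.output k) = dft n k
  args : ∀ g u, π u ∈ C.args (π g) ↔ u ∈ C.args g
  inp : ∀ j, π (C.input j) = C.input (rot 1 j)
  fix : ∀ k, π (C.output k) = C.output k
  scal : ∀ g, s g ≠ 0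
  equi : ∀ g j, v (π g) (rot 1 j) = s g * v g j

/-- The circuit for `n = 1`. -/
def one : Circuit 1 where
  G := Unit
  args := fun _ => ∅
  coef := fun _ _ => 0
  time := fun _ => 0
  time_lt := by simp
  input := fun _ => ()
  input_inj := fun _ _ _ => Subsingleton.elim _ _
  input_args := fun _ => rfl
  output := fun _ => ()

theorem good_one : Good one (Equiv.refl _) (fun _ _ => 1) (fun _ => 1) where
  forms := by
    refine ⟨fun j => ?_, fun g hg => ?_⟩
    · funext i
      rw [Subsingleton.elim i j, Pi.single_eq_same]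
    · exact absurd rfl (hg 0)
  out := fun k => by
    funext j
    simp [dft]
  args := fun g u => Iff.rfl
  inp := fun j => rfl
  fix := fun k => rfl
  scal := fun _ => one_ne_zero
  equi := fun _ _ => by simp

theorem additions_one : one.additions = 0 := by
  simp [Circuit.additions, one]

section step

variable {m : ℕ} (p : ℕ) (C : Circuit m)

theorem aux_div {p m j : ℕ} (h : j < m * p) : j / p < m := Nat.div_lt_of_lt_mul (by rwa [Nat.mul_comm])

theorem aux_pos {p m : ℕ} (j : Fin (m * p)) : 0 < p := by
  rcases Nat.eq_zero_or_pos p with h | h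
  · subst h
    exact absurd j.isLt (by simp)
  · exact h

theorem aux_pos' {p m : ℕ} (j : Fin (m * p)) : 0 < m := by
  rcases Nat.eq_zero_or_pos m with h | h
  · subst h
    exact absurd j.isLt (by simp)
  · exact h

/-- quotient by `p` -/
def quo {p m : ℕ} (j : Fin (m * p)) : Fin m := ⟨j / p, aux_div j.isLt⟩

/-- remainder modulo `p` -/
def rem {p m : ℕ} (j : Fin (m * p)) : Fin p := ⟨j % p, Nat.mod_lt _ (aux_pos j)⟩

/-- remainder modulo `m` -/
def red {p m : ℕ} (k : Fin (m * p)) : Fin m := ⟨k % m, Nat.mod_lt _ (aux_pos' k)⟩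

/-- the gates of the copy `a` -/
def eCopy (a : Fin p) : C.G ↪ (Fin p × C.G) ⊕ Fin (m * p) :=
  ⟨fun u => .inl (a, u), fun x y h => by simpa using h⟩

/-- the copies of the gate `o` -/
def eOut (o : C.G) : Fin p ↪ (Fin p × C.G) ⊕ Fin (m * p) :=
  ⟨fun a => .inl (a, o), fun x y h => by simpa using h⟩

theorem eCopy_apply (a : Fin p) (u : C.G) : eCopy p C a u = .inl (a, u) := rfl

theorem eOut_apply (a : Fin p) (o : C.G) : eOut p C o a = .inl (a, o) := rfl

/-- The arguments in one step of the mixed radix algorithm. -/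
def sArgs : (Fin p × C.G) ⊕ Fin (m * p) → Finset ((Fin p × C.G) ⊕ Fin (m * p))
  | .inl (a, g) => (C.args g).map (eCopy p C a)
  | .inr k => Finset.univ.map (eOut p C (C.output (red k)))

/-- The coefficients in one step of the mixed radix algorithm. -/
noncomputable def sCoef : (Fin p × C.G) ⊕ Fin (m * p) → (Fin p × C.G) ⊕ Fin (m * p) → ℂ
  | .inl (_, g), .inl (_, u) => C.coef g u
  | .inr k, .inl (a, _) => Complex.exp (2 * Real.pi * Complex.I / (m * p : ℕ)) ^ ((k : ℕ) * a)
  | _, .inr _ => 0

/-- The times in one step of the mixed radix algorithm. -/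
def sTime : (Fin p × C.G) ⊕ Fin (m * p) → ℕ
  | .inl (_, g) => C.time g
  | .inr _ => ∑ g, C.time g + 1

variable {p C} in
theorem mem_sArgs_inl {a b : Fin p} {g u : C.G} :
    .inl (b, u) ∈ sArgs p C (.inl (a, g)) ↔ a = b ∧ u ∈ C.args g := by
  simp only [sArgs, Finset.mem_map, eCopy_apply, Sum.inl.injEq, Prod.mk.injEq]
  constructor
  · rintro ⟨x, hx, rfl, rfl⟩
    exact ⟨rfl, hx⟩
  · rintro ⟨rfl, h⟩
    exact ⟨u, h, rfl, rfl⟩

variable {p C} in
theorem inr_not_mem_sArgs (g : (Fin p × C.G) ⊕ Fin (m * p)) (k : Fin (m * p)) :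
    .inr k ∉ sArgs p C g := by
  rcases g with ⟨a, g⟩ | l <;> simp [sArgs, eCopy_apply, eOut_apply]

variable {p C} in
theorem mem_sArgs_inr {b : Fin p} {u : C.G} {k : Fin (m * p)} :
    .inl (b, u) ∈ sArgs p C (.inr k) ↔ u = C.output (red k) := by
  simp only [sArgs, Finset.mem_map, eOut_apply, Sum.inl.injEq, Prod.mk.injEq,
    Finset.mem_univ, true_and]
  constructor
  · rintro ⟨x, rfl, rfl⟩
    rfl
  · rintro rfl
    exact ⟨b, rfl, rfl⟩

theorem sTime_lt (g u : (Fin p × C.G) ⊕ Fin (m * p)) (hu : u ∈ sArgs p C g) :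
    sTime p C u < sTime p C g := by
  rcases u with ⟨b, u⟩ | l
  · rcases g with ⟨a, g⟩ | k
    · exact C.time_lt g u (mem_sArgs_inl.1 hu).2
    · rw [mem_sArgs_inr.1 hu]
      exact Nat.lt_succ_of_le
        (Finset.single_le_sum (f := fun g => C.time g) (fun _ _ => Nat.zero_le _)
          (Finset.mem_univ (C.output (red k))))
  · exact absurd hu (inr_not_mem_sArgs g l)

/-- One step of the mixed radix algorithm: `p` copies of the circuit for `m`, then the
combinations of their outputs. -/
noncomputable def stepC : Circuit (m * p) where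
  G := (Fin p × C.G) ⊕ Fin (m * p)
  args := sArgs p C
  coef := sCoef p C
  time := sTime p C
  time_lt := sTime_lt p C
  input := fun j => .inl (rem j, C.input (quo j))
  input_inj := by
    intro i j h
    simp only [Sum.inl.injEq, Prod.mk.injEq] at h
    obtain ⟨h1, h2⟩ := h
    have h3 := congrArg Fin.val h1
    have h4 := congrArg Fin.val (C.input_inj h2)
    simp only [rem, quo] at h3 h4
    apply Fin.ext
    rw [← Nat.div_add_mod (i : ℕ) p, ← Nat.div_add_mod (j : ℕ) p, h3, h4]
  input_args := fun j => by
    simp [sArgs, C.input_args]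
  output := fun k => .inr k

theorem additions_step : (stepC p C).additions = p * C.additions + (m * p) * (p - 1) := by
  have h : (stepC p C).additions =
      ∑ g : (Fin p × C.G) ⊕ Fin (m * p), ((sArgs p C g).card - 1) := rfl
  rw [h, Fintype.sum_sum_type]
  congr 1
  · rw [Fintype.sum_prod_type]
    simp only [sArgs, Finset.card_map]
    rw [Finset.sum_const, Finset.card_univ, Fintype.card_fin, smul_eq_mul]
    rfl
  · simp [sArgs]

variable (π : Equiv.Perm C.G) (v : C.G → Fin m → ℂ) (s : C.G → ℂ)

/-- the permutation of the gates -/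
def stepF : (Fin p × C.G) ⊕ Fin (m * p) → (Fin p × C.G) ⊕ Fin (m * p)
  | .inl (a, g) => if h : (a : ℕ) + 1 < p then .inl (⟨a + 1, h⟩, g)
      else .inl (⟨0, a.pos⟩, π g)
  | .inr k => .inr k

theorem stepF_inj : Function.Injective (stepF p C π) := by
  rintro (⟨a, g⟩ | k) (⟨b, u⟩ | l) h
  · by_cases ha : (a : ℕ) + 1 < p <;> by_cases hb : (b : ℕ) + 1 < p
    · simp only [stepF, ha, hb, dif_pos, Sum.inl.injEq, Prod.mk.injEq, Fin.mk.injEq] at h
      obtain ⟨h1, rfl⟩ := h
      have : a = b := Fin.ext (by omega)
      rw [this]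
    · simp [stepF, ha, hb] at h
    · simp [stepF, ha, hb] at h
    · simp only [stepF, ha, hb, dif_neg, not_false_eq_true, Sum.inl.injEq, Prod.mk.injEq,
        true_and] at h
      have h1 : a = b := Fin.ext (by have := a.isLt; have := b.isLt; omega)
      rw [h1, π.injective h]
  · by_cases ha : (a : ℕ) + 1 < p <;> simp [stepF, ha] at h
  · by_cases hb : (b : ℕ) + 1 < p <;> simp [stepF, hb] at h
  · exact h

/-- the permutation of the gates -/
noncomputable def stepP : Equiv.Perm (stepC p C).G :=
  Equiv.ofBijective (stepF p C π) (Finite.injective_iff_bijective.1 (stepF_inj p C π))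

variable {p} in
theorem stepF_lt {a : Fin p} (g : C.G) (h : (a : ℕ) + 1 < p) :
    stepF p C π (.inl (a, g)) = .inl (⟨a + 1, h⟩, g) := by
  simp [stepF, h]

variable {p} in
theorem stepF_ge {a : Fin p} (g : C.G) (h : ¬ (a : ℕ) + 1 < p) :
    stepF p C π (.inl (a, g)) = .inl (⟨0, a.pos⟩, π g) := by
  simp [stepF, h]

theorem stepF_inr (k : Fin (m * p)) : stepF p C π (.inr k) = .inr k := rfl

/-- the forms of the gates -/
noncomputable def stepV : (Fin p × C.G) ⊕ Fin (m * p) → Fin (m * p) → ℂ
  | .inl (a, g) => fun j => if rem j = a then v g (quo j) else 0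
  | .inr k => dft (m * p) k

/-- the factors -/
noncomputable def stepS : (Fin p × C.G) ⊕ Fin (m * p) → ℂ
  | .inl (a, g) => if (a : ℕ) + 1 < p then 1 else s g
  | .inr k => Complex.exp (2 * Real.pi * Complex.I / (m * p : ℕ)) ^ (k : ℕ)

theorem zeta_pow (N : ℕ) (hN : N ≠ 0) : Complex.exp (2 * Real.pi * Complex.I / N) ^ N = 1 := by
  rw [← Complex.exp_nat_mul]
  have : (N : ℂ) ≠ 0 := by exact_mod_cast hN
  rw [mul_div_cancel₀ _ this, Complex.exp_two_pi_mul_I]

theorem zeta_mod {N : ℕ} (hN : N ≠ 0) (a : ℕ) :
    Complex.exp (2 * Real.pi * Complex.I / N) ^ (a % N) =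
      Complex.exp (2 * Real.pi * Complex.I / N) ^ a := by
  conv_rhs => rw [← Nat.div_add_mod a N, pow_add, pow_mul, zeta_pow N hN, one_pow, one_mul]

theorem zeta_sub {p m : ℕ} (hp : p ≠ 0) :
    Complex.exp (2 * Real.pi * Complex.I / (m : ℕ)) =
      Complex.exp (2 * Real.pi * Complex.I / (m * p : ℕ)) ^ p := by
  rw [← Complex.exp_nat_mul]
  congr 1
  have h2 : (p : ℂ) ≠ 0 := by exact_mod_cast hp
  push_cast
  rcases eq_or_ne (m : ℂ) 0 with h | h
  · rw [h]
    simp
  · field_simp

theorem dft_split {p m : ℕ} (k j : Fin (m * p)) :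
    dft (m * p) k j = Complex.exp (2 * Real.pi * Complex.I / (m * p : ℕ)) ^ ((k : ℕ) * rem j) *
      dft m (red k) (quo j) := by
  have hp := aux_pos j
  have hm := aux_pos' j
  simp only [dft]
  have e1 : Complex.exp (2 * Real.pi * Complex.I / (m : ℕ)) ^ ((red k : ℕ) * (quo j : ℕ)) =
      Complex.exp (2 * Real.pi * Complex.I / (m : ℕ)) ^ ((k : ℕ) * (quo j : ℕ)) := by
    rw [← zeta_mod hm.ne' ((red k : ℕ) * (quo j : ℕ)), ← zeta_mod hm.ne' ((k : ℕ) * (quo j : ℕ))]
    congr 1
    simp only [red]
    rw [Nat.mul_mod, Nat.mod_mod, ← Nat.mul_mod]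
  rw [e1, zeta_sub (m := m) hp.ne', ← pow_mul (Complex.exp (2 * Real.pi * Complex.I / (m * p : ℕ))) p,
    ← pow_add]
  congr 1
  simp only [rem, quo]
  have := Nat.div_add_mod (j : ℕ) p
  calc (k : ℕ) * j = k * (p * (j / p) + j % p) := by rw [this]
    _ = _ := by ring

theorem rem_rot {p m : ℕ} (j : Fin (m * p)) :
    ((rem (rot 1 j) : Fin p) : ℕ) = ((rem j : Fin p) + 1) % p := by
  simp only [rem, rot]
  rw [Nat.mod_mul_left_mod, Nat.mod_add_mod]

theorem quo_rot_lt {p m : ℕ} (j : Fin (m * p)) (h : ((rem j : Fin p) : ℕ) + 1 < p) :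
    quo (rot 1 j) = quo j := by
  have hp := aux_pos j
  apply Fin.ext
  simp only [rem, quo, rot] at *
  have h1 := Nat.div_add_mod (j : ℕ) p
  have h2 := aux_div j.isLt
  have h3 : (j : ℕ) + 1 < m * p := by
    have h4 : ((j : ℕ) / p + 1) * p ≤ m * p := Nat.mul_le_mul_right p h2
    nlinarith
  rw [Nat.mod_eq_of_lt h3]
  have h5 : (j : ℕ) + 1 = p * (j / p) + (j % p + 1) := by omega
  rw [h5, Nat.mul_add_div hp, Nat.div_eq_of_lt h, Nat.add_zero]

theorem quo_rot_ge {p m : ℕ} (j : Fin (m * p)) (h : ¬ ((rem j : Fin p) : ℕ) + 1 < p) :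
    quo (rot 1 j) = rot 1 (quo j) := by
  have hp := aux_pos j
  have hm := aux_pos' j
  apply Fin.ext
  simp only [rem, quo, rot] at *
  have h1 := Nat.div_add_mod (j : ℕ) p
  have h2 := aux_div j.isLt
  have h4 := Nat.mod_lt (j : ℕ) hp
  have h5 : (j : ℕ) + 1 = p * (j / p + 1) := by
    have : (j : ℕ) % p + 1 = p := by omega
    rw [Nat.mul_add, Nat.mul_one]
    omega
  have h6 : ∀ x : ℕ, p * x % (m * p) = p * (x % m) := fun x => by
    rw [Nat.mul_comm m p, Nat.mul_mod_mul_left]
  rw [h5, h6, Nat.mul_div_cancel_left _ hp]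

variable {p C π v s}

theorem good_step (h : Good C π v s) (hp : 0 < p) :
    Good (stepC p C) (stepP p C π) (stepV p C v) (stepS p C s) where
  forms := by
    refine ⟨fun j => ?_, fun g hg => ?_⟩
    · funext i
      show (if rem i = rem j then v (C.input (quo j)) (quo i) else 0) = _
      rw [h.forms.input]
      by_cases hij : i = j
      · subst hij
        simp
      · rw [Pi.single_eq_of_ne hij]
        split_ifs with h1
        · rw [Pi.single_eq_of_ne]
          intro h2
          apply hij
          have h3 := congrArg Fin.val h1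
          have h4 := congrArg Fin.val h2
          simp only [rem, quo] at h3 h4
          apply Fin.ext
          rw [← Nat.div_add_mod (i : ℕ) p, ← Nat.div_add_mod (j : ℕ) p, h3, h4]
        · rfl
    · rcases g with ⟨a, g⟩ | k
      · have hg' : ∀ j, g ≠ C.input j := by
          intro j hj
          have hlt : (j : ℕ) * p + a < m * p := by
            have h1 : ((j : ℕ) + 1) * p ≤ m * p := Nat.mul_le_mul_right p j.isLt
            have := a.isLt
            nlinarith
          refine hg ⟨(j : ℕ) * p + a, hlt⟩ ?_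
          show Sum.inl (a, g) = Sum.inl (rem _, C.input (quo _))
          have e1 : (rem ⟨(j : ℕ) * p + a, hlt⟩ : Fin p) = a := by
            apply Fin.ext
            simp only [rem]
            rw [Nat.mul_comm, Nat.mul_add_mod, Nat.mod_eq_of_lt a.isLt]
          have e2 : (quo ⟨(j : ℕ) * p + a, hlt⟩ : Fin m) = j := by
            apply Fin.ext
            simp only [quo]
            rw [Nat.mul_comm, Nat.mul_add_div hp, Nat.div_eq_of_lt a.isLt, Nat.add_zero]
          rw [e1, e2, hj]
        funext i
        show (if rem i = a then v g (quo i) else 0) =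
          (∑ u ∈ sArgs p C (.inl (a, g)), sCoef p C (.inl (a, g)) u • stepV p C v u) i
        rw [h.forms.gate g hg', Finset.sum_apply, Finset.sum_apply]
        simp only [sArgs, Finset.sum_map, eCopy_apply, Pi.smul_apply, smul_eq_mul,
          sCoef, stepV]
        split_ifs with h1
        · rfl
        · simp
      · funext i
        show dft (m * p) k i =
          (∑ u ∈ sArgs p C (.inr k), sCoef p C (.inr k) u • stepV p C v u) i
        rw [Finset.sum_apply]
        simp only [sArgs, Finset.sum_map, eOut_apply, Pi.smul_apply, smul_eq_mul,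
          sCoef, stepV]
        rw [Finset.sum_eq_single (rem i)]
        · rw [if_pos rfl, h.out, dft_split]
        · intro b _ hb
          rw [if_neg (Ne.symm hb), mul_zero]
        · intro hb
          exact absurd (Finset.mem_univ _) hb
  out := fun k => rfl
  args := by
    have key : ∀ g u, stepF p C π u ∈ sArgs p C (stepF p C π g) ↔ u ∈ sArgs p C g := by
      rintro (⟨a, g⟩ | k) (⟨b, u⟩ | l)
      · rw [mem_sArgs_inl]
        by_cases ha : (a : ℕ) + 1 < p <;> by_cases hb : (b : ℕ) + 1 < p
        · rw [stepF_lt C π g ha, stepF_lt C π u hb, mem_sArgs_inl]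
          refine and_congr ?_ Iff.rfl
          rw [Fin.ext_iff, Fin.ext_iff]
          simp
        · rw [stepF_lt C π g ha, stepF_ge C π u hb, mem_sArgs_inl]
          constructor
          · rintro ⟨h1, -⟩
            rw [Fin.ext_iff] at h1
            simp at h1
          · rintro ⟨rfl, -⟩
            exact absurd ha hb
        · rw [stepF_ge C π g ha, stepF_lt C π u hb, mem_sArgs_inl]
          constructor
          · rintro ⟨h1, -⟩
            rw [Fin.ext_iff] at h1
            simp at h1
          · rintro ⟨rfl, -⟩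
            exact absurd hb ha
        · rw [stepF_ge C π g ha, stepF_ge C π u hb, mem_sArgs_inl, h.args]
          refine and_congr ?_ Iff.rfl
          constructor
          · intro _
            apply Fin.ext
            have := a.isLt
            have := b.isLt
            omega
          · intro _
            rfl
      · rw [stepF_inr]
        exact iff_of_false (inr_not_mem_sArgs _ l) (inr_not_mem_sArgs _ l)
      · rw [stepF_inr, mem_sArgs_inr]
        by_cases hb : (b : ℕ) + 1 < p
        · rw [stepF_lt C π u hb, mem_sArgs_inr]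
        · rw [stepF_ge C π u hb, mem_sArgs_inr]
          constructor
          · intro h1
            apply π.injective
            rw [h1, h.fix]
          · intro h1
            rw [h1, h.fix]
      · exact iff_of_false (inr_not_mem_sArgs _ l) (inr_not_mem_sArgs _ l)
    exact key
  inp := by
    intro j
    show stepF p C π (.inl (rem j, C.input (quo j))) = .inl (rem (rot 1 j), C.input (quo (rot 1 j)))
    have h2 := rem_rot j
    by_cases h1 : ((rem j : Fin p) : ℕ) + 1 < p
    · rw [stepF_lt C π _ h1, quo_rot_lt j h1]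
      rw [Nat.mod_eq_of_lt h1] at h2
      congr 2
      exact Fin.ext h2.symm
    · rw [stepF_ge C π _ h1, quo_rot_ge j h1, h.inp]
      have h3 : ((rem j : Fin p) : ℕ) + 1 = p := by
        have := (rem j : Fin p).isLt
        omega
      rw [h3, Nat.mod_self] at h2
      congr 2
      exact Fin.ext h2.symm
  fix := fun k => rfl
  scal := by
    rintro (⟨a, g⟩ | k)
    · show (if (a : ℕ) + 1 < p then (1 : ℂ) else s g) ≠ 0
      split_ifs
      · exact one_ne_zero
      · exact h.scal g
    · exact pow_ne_zero _ (Complex.exp_ne_zero _)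
  equi := by
    rintro (⟨a, g⟩ | k) j
    · have h2 := rem_rot j
      by_cases ha : (a : ℕ) + 1 < p
      · show stepV p C v (stepF p C π (.inl (a, g))) (rot 1 j) = stepS p C s (.inl (a, g)) * stepV p C v (.inl (a, g)) j
        rw [stepF_lt C π _ ha]
        show (if rem (rot 1 j) = ⟨a + 1, ha⟩ then v g (quo (rot 1 j)) else 0) =
          (if (a : ℕ) + 1 < p then (1 : ℂ) else s g) * (if rem j = a then v g (quo j) else 0)
        rw [if_pos ha, one_mul]
        by_cases h3 : rem j = a
        · have h4 : ((rem j : Fin p) : ℕ) + 1 < p := by rw [h3]; exact ha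
          rw [if_pos h3, quo_rot_lt j h4, if_pos]
          apply Fin.ext
          rw [h2, h3, Nat.mod_eq_of_lt ha]
        · rw [if_neg h3, if_neg]
          intro h4
          apply h3
          have h5 := congrArg Fin.val h4
          rw [h2] at h5
          simp only at h5
          apply Fin.ext
          by_cases h6 : ((rem j : Fin p) : ℕ) + 1 < p
          · rw [Nat.mod_eq_of_lt h6] at h5
            omega
          · have h7 : ((rem j : Fin p) : ℕ) + 1 = p := by
              have := (rem j : Fin p).isLt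
              omega
            rw [h7, Nat.mod_self] at h5
            omega
      · show stepV p C v (stepF p C π (.inl (a, g))) (rot 1 j) = stepS p C s (.inl (a, g)) * stepV p C v (.inl (a, g)) j
        rw [stepF_ge C π _ ha]
        show (if rem (rot 1 j) = ⟨0, a.pos⟩ then v (π g) (quo (rot 1 j)) else 0) =
          (if (a : ℕ) + 1 < p then (1 : ℂ) else s g) * (if rem j = a then v g (quo j) else 0)
        rw [if_neg ha]
        by_cases h3 : rem j = a
        · have h4 : ¬ ((rem j : Fin p) : ℕ) + 1 < p := by rw [h3]; exact ha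
          have h7 : ((rem j : Fin p) : ℕ) + 1 = p := by
            have := (rem j : Fin p).isLt
            omega
          rw [if_pos h3, quo_rot_ge j h4, if_pos, h.equi]
          apply Fin.ext
          rw [h2, h7, Nat.mod_self]
        · rw [if_neg h3, if_neg, mul_zero]
          intro h4
          apply h3
          have h5 := congrArg Fin.val h4
          rw [h2] at h5
          simp only at h5
          apply Fin.ext
          have h8 := (rem j : Fin p).isLt
          have h9 := a.isLt
          by_cases h6 : ((rem j : Fin p) : ℕ) + 1 < p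
          · rw [Nat.mod_eq_of_lt h6] at h5
            omega
          · omega
    · show dft (m * p) k (rot 1 j) = Complex.exp (2 * Real.pi * Complex.I / (m * p : ℕ)) ^ (k : ℕ) *
        dft (m * p) k j
      have hN : m * p ≠ 0 := (Fin.pos j).ne'
      simp only [dft, rot]
      rw [← pow_add, ← zeta_mod hN (_ * _), Nat.mul_mod, Nat.mod_mod, ← Nat.mul_mod, zeta_mod hN]
      congr 1
      ring

end step

theorem zeta_inj {n : ℕ} : Function.Injective
    fun k : Fin n => Complex.exp (2 * Real.pi * Complex.I / n) ^ (k : ℕ) := by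
  intro i j h
  have hn : n ≠ 0 := i.pos.ne'
  have hprim := Complex.isPrimitiveRoot_exp n hn
  exact Fin.ext (hprim.pow_inj i.isLt j.isLt h)

theorem dft_det_ne_zero (n : ℕ) : (dft n).det ≠ 0 := by
  have h : dft n = Matrix.vandermonde
      (fun k : Fin n => Complex.exp (2 * Real.pi * Complex.I / n) ^ (k : ℕ)) := by
    ext k j
    rw [Matrix.vandermonde_apply, ← pow_mul]
    rfl
  rw [h, Matrix.det_vandermonde_ne_zero_iff]
  exact zeta_inj

theorem le_two_pow_weight {n : ℕ} (hn : n ≠ 0) : n ≤ 2 ^ weight n := by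
  induction n using Nat.recOnMul with
  | zero => exact absurd rfl hn
  | one => simp [weight]
  | prime p hp =>
    rw [weight_prime hp]
    have h1 : p - 1 < 2 ^ (p - 1) := Nat.lt_two_pow_self
    omega
  | mul a b ha hb =>
    rw [weight_mul (left_ne_zero_of_mul hn) (right_ne_zero_of_mul hn), pow_add]
    exact Nat.mul_le_mul (ha (left_ne_zero_of_mul hn)) (hb (right_ne_zero_of_mul hn))

theorem logb_le_weight {n : ℕ} (hn : n ≠ 0) : Real.logb 2 n ≤ weight n := by
  have h1 : (n : ℝ) ≤ 2 ^ (weight n : ℝ) := by
    rw [Real.rpow_natCast]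
    exact_mod_cast le_two_pow_weight hn
  have h0 : (0 : ℝ) < n := by exact_mod_cast Nat.pos_of_ne_zero hn
  rw [Real.logb_le_iff_le_rpow (by norm_num) h0]
  exact h1

theorem ord_zero {n : ℕ} (hn : n ≠ 0) : ord n 0 = 1 := by
  rw [ord, Nat.gcd_zero_right, Nat.div_self (Nat.pos_of_ne_zero hn)]

theorem ord_one (n : ℕ) : ord n 1 = n := by
  rw [ord, Nat.gcd_one_right, Nat.div_one]

/-- **The upper bound.** -/
theorem upper (n : ℕ) (hn : n ≠ 0) : ∃ (C : Circuit n) (π : Equiv.Perm C.G)
    (v : C.G → Fin n → ℂ) (s : C.G → ℂ), Good C π v s ∧ C.additions = n * weight n := by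
  induction n using Nat.strong_induction_on with
  | _ n ih =>
    rcases Nat.lt_or_ge n 2 with h1 | h1
    · obtain rfl : n = 1 := by omega
      exact ⟨one, _, _, _, good_one, by rw [additions_one, weight_one]⟩
    · have hp : (n.minFac).Prime := Nat.minFac_prime (by omega)
      obtain ⟨m, hm⟩ : ∃ m, n = m * n.minFac :=
        ⟨n / n.minFac, (Nat.div_mul_cancel (Nat.minFac_dvd n)).symm⟩
      set p := n.minFac
      have hm0 : m ≠ 0 := by
        rintro rfl
        omega
      have hlt : m < n := by
        rw [hm]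
        exact lt_mul_of_one_lt_right (Nat.pos_of_ne_zero hm0) hp.one_lt
      obtain ⟨C, π, v, s, hg, ha⟩ := ih m hlt hm0
      clear_value p
      subst hm
      refine ⟨stepC p C, stepP p C π, stepV p C v, stepS p C s, good_step hg hp.pos, ?_⟩
      rw [additions_step, ha, weight_mul hm0 hp.ne_zero, weight_prime hp]
      ring

end Vale.Agent.P344.Inv
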