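import Vale.Agent.P344.H880.KMain

/-!
# P344: the conditioning theorem for the discrete Fourier transform
-/

namespace Vale.Agent.P344

open Finset

/-- The matrix of the unnormalized discrete Fourier transform `F_n`. -/
noncomputable def dftMat (n : ℕ) : Matrix (Fin n) (Fin n) ℂ :=
  fun j k => Complex.exp (2 * Real.pi * Complex.I / n) ^ ((j : ℕ) * (k : ℕ))

theorem norm_zeta (n : ℕ) : ‖Complex.exp (2 * Real.pi * Complex.I / n)‖ = 1 := by
  have h : (2 * Real.pi * Complex.I / n : ℂ) = ((2 * Real.pi / n : ℝ) : ℂ) * Complex.I := by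
    push_cast
    ring
  rw [h, Complex.norm_exp_ofReal_mul_I]

theorem norm_dftMat (n : ℕ) (j k : Fin n) : ‖dftMat n j k‖ = 1 := by
  rw [dftMat, norm_pow, norm_zeta, one_pow]

theorem dftMat_mul (n : ℕ) : dftMat n * (dftMat n).conjTranspose = (n : ℂ) • 1 := by
  rcases Nat.eq_zero_or_pos n with hn | hn
  · subst hn
    exact Subsingleton.elim _ _
  have hn0 : n ≠ 0 := hn.ne'
  set ζ := Complex.exp (2 * Real.pi * Complex.I / n) with hζ
  have hprim : IsPrimitiveRoot ζ n := Complex.isPrimitiveRoot_exp n hn0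
  have hconj : ∀ m : ℕ, star (ζ ^ m) = (ζ ^ m)⁻¹ := by
    intro m
    rw [Complex.star_def, ← Complex.inv_eq_conj]
    rw [norm_pow, norm_zeta, one_pow]
  ext j l
  rw [Matrix.mul_apply, Matrix.smul_apply, Matrix.one_apply, smul_eq_mul]
  have e1 : ∀ k : Fin n, dftMat n j k * (dftMat n).conjTranspose k l =
      (ζ ^ (j : ℕ) * (ζ ^ (l : ℕ))⁻¹) ^ (k : ℕ) := by
    intro k
    rw [Matrix.conjTranspose_apply, dftMat, dftMat, ← hζ, hconj, pow_mul, pow_mul, mul_pow,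
      inv_pow]
  rw [Finset.sum_congr rfl fun k _ => e1 k, Fin.sum_univ_eq_sum_range
    (fun k => (ζ ^ (j : ℕ) * (ζ ^ (l : ℕ))⁻¹) ^ k) n]
  by_cases hjl : j = l
  · subst hjl
    have hz : ζ ^ (j : ℕ) ≠ 0 := pow_ne_zero _ (hprim.ne_zero hn0)
    rw [if_pos rfl, mul_inv_cancel₀ hz]
    simp
  · rw [if_neg hjl, mul_zero]
    have hz : ζ ^ (l : ℕ) ≠ 0 := pow_ne_zero _ (hprim.ne_zero hn0)
    have h1 : ζ ^ (j : ℕ) * (ζ ^ (l : ℕ))⁻¹ ≠ 1 := by
      intro h
      rw [mul_inv_eq_one₀ hz] at h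
      exact hjl (Fin.ext (hprim.pow_inj j.isLt l.isLt h))
    have h2 : (ζ ^ (j : ℕ) * (ζ ^ (l : ℕ))⁻¹) ^ n = 1 := by
      rw [mul_pow, inv_pow, ← pow_mul, ← pow_mul, mul_comm, mul_comm (l : ℕ), mul_comm (j : ℕ),
        pow_mul, pow_mul, hprim.pow_eq_one, one_pow, one_pow, inv_one, one_mul]
    rw [geom_sum_eq h1, h2, sub_self, zero_div]

theorem log_le_of_le {P W : ℝ} (hW : 0 ≤ W) (h : W ≤ P) : W * (1 + Real.log (P / W)) ≤ P := by
  rcases hW.eq_or_lt with h0 | h0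
  · rw [← h0, zero_mul]
    exact hW.trans h
  · have h1 := Real.log_le_sub_one_of_pos (div_pos (h0.trans_le h) h0)
    have h2 : W * (1 + Real.log (P / W)) ≤ W * (P / W) :=
      mul_le_mul_of_nonneg_left (by linarith) h0.le
    rwa [mul_div_cancel₀ _ h0.ne'] at h2

variable {ι κ : Type} [Fintype ι] [DecidableEq ι] [Fintype κ]

theorem loss_le_cond (C : Circuit ι κ) {f : C.G → ι → ℂ} {h : C.G → κ → ℂ} (hf : C.IsForms f)
    (g : C.G) : C.loss f h g ≤ C.cond f h g := by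
  have hfg := hf g
  rw [Circuit.loss, Circuit.cond, mul_assoc]
  refine mul_le_mul_of_nonneg_left ?_ (nrm_nonneg _)
  rcases hG : C.gate g with ⟨p, q⟩ | ⟨p, q⟩ | ⟨c, p⟩
  · rw [hG, Gate.eval] at hfg
    simp only [Gate.cancel, Gate.size]
    rw [hfg]
    exact log_le_of_le (nrm_nonneg _) (nrm_add_le _ _)
  · rw [hG, Gate.eval] at hfg
    simp only [Gate.cancel, Gate.size]
    rw [hfg]
    refine log_le_of_le (nrm_nonneg _) ?_
    rw [sub_eq_add_neg, ← nrm_neg (C.cell f q)]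
    exact nrm_add_le _ _
  · simp only [Gate.cancel, Gate.size, mul_zero, le_refl]

end Vale.Agent.P344
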