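import Vale.Agent.P344.H952.CDefs

/-!
# P344: the Kalton-Peck map and its quasi-linearity
-/

namespace Vale.Agent.P344

open Finset

section nrm

variable {ι : Type} [Fintype ι]

theorem nrm_eq (v : ι → ℂ) : nrm v = ‖(WithLp.toLp 2 v : EuclideanSpace ℂ ι)‖ := by
  rw [nrm, EuclideanSpace.norm_eq]

theorem nrm_nonneg (v : ι → ℂ) : 0 ≤ nrm v := Real.sqrt_nonneg _

theorem nrm_add_le (u v : ι → ℂ) : nrm (u + v) ≤ nrm u + nrm v := by
  rw [nrm_eq, nrm_eq, nrm_eq, WithLp.toLp_add]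
  exact norm_add_le _ _

theorem nrm_neg (v : ι → ℂ) : nrm (-v) = nrm v := by
  rw [nrm_eq, nrm_eq, WithLp.toLp_neg, norm_neg]

theorem nrm_smul (c : ℂ) (v : ι → ℂ) : nrm (c • v) = ‖c‖ * nrm v := by
  rw [nrm_eq, nrm_eq, WithLp.toLp_smul, norm_smul]

theorem nrm_mono {u v : ι → ℂ} (h : ∀ i, ‖u i‖ ≤ ‖v i‖) : nrm u ≤ nrm v :=
  Real.sqrt_le_sqrt (Finset.sum_le_sum fun i _ => pow_le_pow_left₀ (norm_nonneg _) (h i) 2)

theorem nrm_eq_zero {v : ι → ℂ} : nrm v = 0 ↔ v = 0 := by
  rw [nrm_eq, norm_eq_zero, WithLp.toLp_eq_zero]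

theorem norm_le_nrm (v : ι → ℂ) (i : ι) : ‖v i‖ ≤ nrm v := by
  rw [nrm]
  refine Real.le_sqrt_of_sq_le ?_
  exact Finset.single_le_sum (f := fun i => ‖v i‖ ^ 2) (fun i _ => by positivity)
    (Finset.mem_univ i)

theorem norm_sum_mul_le (a b : ι → ℂ) : ‖∑ i, a i * b i‖ ≤ nrm a * nrm b := by
  calc ‖∑ i, a i * b i‖ ≤ ∑ i, ‖a i‖ * ‖b i‖ := by
        refine (norm_sum_le _ _).trans (le_of_eq ?_)
        exact Finset.sum_congr rfl fun i _ => norm_mul _ _
    _ ≤ _ := Real.sum_mul_le_sqrt_mul_sqrt _ _ _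

end nrm

variable {ι : Type} [Fintype ι]

/-- The Kalton-Peck map. -/
noncomputable def Gam (v : ι → ℂ) (i : ι) : ℂ := v i * (Real.log (‖v i‖ / nrm v) : ℝ)

theorem Gam_apply (v : ι → ℂ) (i : ι) :
    Gam v i = v i * ((Real.log ‖v i‖ - Real.log (nrm v) : ℝ) : ℂ) := by
  rw [Gam]
  by_cases h : v i = 0
  · rw [h, zero_mul, zero_mul]
  · have h1 : 0 < ‖v i‖ := norm_pos_iff.2 h
    have h2 : 0 < nrm v := h1.trans_le (norm_le_nrm v i)
    rw [Real.log_div h1.ne' h2.ne']

theorem Gam_zero : Gam (0 : ι → ℂ) = 0 := by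
  funext i
  simp [Gam]

theorem Gam_smul (c : ℂ) (v : ι → ℂ) : Gam (c • v) = c • Gam v := by
  funext i
  by_cases hc : c = 0
  · simp [hc, Gam]
  · have h : ‖(c • v) i‖ / nrm (c • v) = ‖v i‖ / nrm v := by
      rw [nrm_smul, Pi.smul_apply, smul_eq_mul, norm_mul]
      exact mul_div_mul_left _ _ (norm_ne_zero_iff.2 hc)
    rw [Gam, h, Pi.smul_apply, Pi.smul_apply, Gam, smul_eq_mul, smul_eq_mul, mul_assoc]

theorem Gam_neg (v : ι → ℂ) : Gam (-v) = -Gam v := by
  have := Gam_smul (-1) v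
  simpa using this

theorem Gam_single [DecidableEq ι] (i : ι) : Gam (Pi.single i (1 : ℂ)) = 0 := by
  have h : nrm (Pi.single i (1 : ℂ)) = 1 := by
    rw [nrm, Finset.sum_eq_single i]
    · simp
    · intro j _ hj
      simp [hj]
    · intro h
      exact absurd (Finset.mem_univ i) h
  funext j
  rw [Gam, h]
  by_cases hj : j = i
  · subst hj
    simp
  · simp [hj]

/-- A vector with all coordinates of modulus `1`. -/
theorem Gam_flat {v : ι → ℂ} (h : ∀ i, ‖v i‖ = 1) :
    Gam v = ((-(Real.log (Fintype.card ι) / 2) : ℝ) : ℂ) • v := by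
  have hn : nrm v = Real.sqrt (Fintype.card ι) := by
    rw [nrm]
    congr 1
    simp [h]
  funext i
  rw [Gam_apply, h, hn, Real.log_one, Real.log_sqrt (Nat.cast_nonneg _), zero_sub, Pi.smul_apply,
    smul_eq_mul, mul_comm]

/-! ### Quasi-linearity -/

theorem mul_log_sub_le {x y : ℝ} (hx : 0 ≤ x) (hxy : x ≤ y) :
    x * (Real.log y - Real.log x) ≤ y - x := by
  rcases hx.eq_or_lt with h | h
  · rw [← h, zero_mul, sub_zero]
    exact hx.trans hxy
  · have hy : 0 < y := h.trans_le hxy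
    have h1 := Real.log_le_sub_one_of_pos (div_pos hy h)
    rw [Real.log_div hy.ne' h.ne'] at h1
    have h2 := mul_le_mul_of_nonneg_left h1 hx
    have h3 : x * (y / x - 1) = y - x := by
      field_simp
    rwa [h3] at h2

/-- `x (log y - log x) ≤ y / e`. -/
theorem mul_log_sub_le' {x y : ℝ} (hx : 0 ≤ x) (h' : 0 < y) :
    x * (Real.log y - Real.log x) ≤ y / Real.exp 1 := by
  rcases hx.eq_or_lt with h | h
  · rw [← h, zero_mul]
    positivity
  · have h1 := Real.log_le_sub_one_of_pos (div_pos (div_pos h' h) (Real.exp_pos 1))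
    rw [Real.log_div (div_pos h' h).ne' (Real.exp_pos 1).ne', Real.log_exp,
      Real.log_div h'.ne' h.ne'] at h1
    have h2 : Real.log y - Real.log x ≤ y / x / Real.exp 1 := by linarith
    have h3 := mul_le_mul_of_nonneg_left h2 hx
    have h4 : x * (y / x / Real.exp 1) = y / Real.exp 1 := by
      field_simp
    rwa [h4] at h3

/-- The pointwise estimate. -/
theorem pointwise (a b : ℂ) :
    ‖(a + b) * ((Real.log (max ‖a‖ ‖b‖) : ℝ) : ℂ) - a * ((Real.log ‖a‖ : ℝ) : ℂ) -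
      b * ((Real.log ‖b‖ : ℝ) : ℂ)‖ ≤ ‖a + b‖ := by
  have key : ∀ a b : ℂ, ‖b‖ ≤ ‖a‖ → ‖(a + b) * ((Real.log (max ‖a‖ ‖b‖) : ℝ) : ℂ) -
      a * ((Real.log ‖a‖ : ℝ) : ℂ) - b * ((Real.log ‖b‖ : ℝ) : ℂ)‖ ≤ ‖a + b‖ := by
    intro a b hab
    rw [max_eq_left hab]
    have h1 : (a + b) * ((Real.log ‖a‖ : ℝ) : ℂ) - a * ((Real.log ‖a‖ : ℝ) : ℂ) -
        b * ((Real.log ‖b‖ : ℝ) : ℂ) = b * ((Real.log ‖a‖ - Real.log ‖b‖ : ℝ) : ℂ) := by
      push_cast
      ring
    rw [h1, norm_mul, Complex.norm_real, Real.norm_eq_abs]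
    rcases eq_or_ne b 0 with hb | hb
    · rw [hb]
      simp
    · have hb' : 0 < ‖b‖ := norm_pos_iff.2 hb
      rw [abs_of_nonneg (sub_nonneg.2 (Real.log_le_log hb' hab))]
      refine (mul_log_sub_le hb'.le hab).trans ?_
      have := norm_sub_norm_le a (-b)
      rwa [norm_neg, sub_neg_eq_add] at this
  rcases le_total ‖b‖ ‖a‖ with h | h
  · exact key a b h
  · have := key b a h
    rw [max_comm, add_comm b a] at this
    convert this using 2
    ring

/-- The estimate of the main term, at one coordinate. -/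
theorem middle {w : ℂ} {m P W : ℝ} (hm : 0 ≤ m) (hw : ‖w‖ ≤ 2 * m) (hP : 0 < P) (hW : 0 < W)
    (hWP : W ≤ 2 * P) :
    ‖w * ((Real.log ‖w‖ - Real.log m - Real.log W + Real.log P : ℝ) : ℂ)‖ ≤
      ‖w‖ * (Real.log 2 + Real.log P - Real.log W) + W / P / Real.exp 1 * m := by
  have hL : 0 ≤ Real.log 2 + Real.log P - Real.log W := by
    rw [← Real.log_mul two_ne_zero hP.ne', sub_nonneg]
    exact Real.log_le_log hW hWP
  have hr : 0 ≤ W / P / Real.exp 1 * m := by positivity
  rcases eq_or_ne w 0 with h0 | h0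
  · rw [h0]
    simpa using hr
  have hw0 : 0 < ‖w‖ := norm_pos_iff.2 h0
  have hm0 : 0 < m := by
    rcases hm.eq_or_lt with h | h
    · rw [← h] at hw
      linarith
    · exact h
  rw [norm_mul, Complex.norm_real, Real.norm_eq_abs]
  rcases le_total 0 (Real.log ‖w‖ - Real.log m - Real.log W + Real.log P) with h | h
  · rw [abs_of_nonneg h]
    have h1 : Real.log ‖w‖ ≤ Real.log 2 + Real.log m := by
      rw [← Real.log_mul two_ne_zero hm0.ne']
      exact Real.log_le_log hw0 hw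
    have h2 := mul_le_mul_of_nonneg_left (show Real.log ‖w‖ - Real.log m - Real.log W +
      Real.log P ≤ Real.log 2 + Real.log P - Real.log W by linarith) hw0.le
    linarith
  · rw [abs_of_nonpos h]
    have hy : 0 < m * W / P := by positivity
    have h1 := mul_log_sub_le' hw0.le hy
    rw [Real.log_div (mul_pos hm0 hW).ne' hP.ne', Real.log_mul hm0.ne' hW.ne'] at h1
    have h2 : m * W / P / Real.exp 1 = W / P / Real.exp 1 * m := by ring
    rw [h2] at h1
    have h3 : ‖w‖ * -(Real.log ‖w‖ - Real.log m - Real.log W + Real.log P) =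
        ‖w‖ * (Real.log m + Real.log W - Real.log P - Real.log ‖w‖) := by ring
    rw [h3]
    have h4 := mul_nonneg hw0.le hL
    linarith

theorem nrm_max_le (p q : ι → ℂ) (h : nrm q ≤ nrm p) :
    nrm (fun i => ((max ‖p i‖ ‖q i‖ : ℝ) : ℂ)) ≤ Real.sqrt 2 * nrm p := by
  rw [nrm]
  refine Real.sqrt_le_iff.2 ⟨mul_nonneg (Real.sqrt_nonneg _) (nrm_nonneg _), ?_⟩
  rw [mul_pow, Real.sq_sqrt (by norm_num)]
  have hp : nrm p ^ 2 = ∑ i, ‖p i‖ ^ 2 := Real.sq_sqrt (by positivity)
  have hq : nrm q ^ 2 = ∑ i, ‖q i‖ ^ 2 := Real.sq_sqrt (by positivity)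
  have h1 : nrm q ^ 2 ≤ nrm p ^ 2 := pow_le_pow_left₀ (nrm_nonneg _) h 2
  calc ∑ i, ‖((max ‖p i‖ ‖q i‖ : ℝ) : ℂ)‖ ^ 2 ≤ ∑ i, (‖p i‖ ^ 2 + ‖q i‖ ^ 2) := by
        refine Finset.sum_le_sum fun i _ => ?_
        rw [Complex.norm_real, Real.norm_eq_abs, sq_abs]
        rcases le_total ‖p i‖ ‖q i‖ with h | h
        · rw [max_eq_right h]
          have := sq_nonneg ‖p i‖
          linarith
        · rw [max_eq_left h]
          have := sq_nonneg ‖q i‖
          linarith
    _ = nrm p ^ 2 + nrm q ^ 2 := by rw [Finset.sum_add_distrib, hp, hq]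
    _ ≤ 2 * nrm p ^ 2 := by linarith

theorem nrm_ofReal_norm (v : ι → ℂ) : nrm (fun i => ((‖v i‖ : ℝ) : ℂ)) = nrm v := by
  simp [nrm]

theorem const_lt : 2 + Real.sqrt 2 / Real.exp 1 + Real.log 2 < 33 / 10 := by
  have h1 := Real.log_two_lt_d9
  have h2 := Real.exp_one_gt_d9
  have h3 : Real.sqrt 2 < 1.5 := by
    rw [Real.sqrt_lt' (by norm_num)]
    norm_num
  have h4 : Real.sqrt 2 / Real.exp 1 < 0.6 := by
    rw [div_lt_iff₀ (Real.exp_pos 1)]
    nlinarith
  linarith

theorem quasi_aux (p q : ι → ℂ) (hpq : nrm q ≤ nrm p) (hw : 0 < nrm (p + q)) :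
    nrm (Gam (p + q) - Gam p - Gam q) ≤
      nrm (p + q) * (2 + Real.sqrt 2 / Real.exp 1 + Real.log 2 +
        (Real.log (nrm p) - Real.log (nrm (p + q)))) := by
  set P := nrm p with hP
  set Q := nrm q with hQ
  set W := nrm (p + q) with hW
  have hWPQ : W ≤ P + Q := nrm_add_le p q
  have hP0 : 0 < P := by linarith
  have hQ0 : 0 ≤ Q := nrm_nonneg q
  -- the three parts
  set th : ι → ℂ := fun i => (p i + q i) * ((Real.log (max ‖p i‖ ‖q i‖) : ℝ) : ℂ) -
    p i * ((Real.log ‖p i‖ : ℝ) : ℂ) - q i * ((Real.log ‖q i‖ : ℝ) : ℂ) with hth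
  set mi : ι → ℂ := fun i => (p i + q i) * ((Real.log ‖p i + q i‖ -
    Real.log (max ‖p i‖ ‖q i‖) - Real.log W + Real.log P : ℝ) : ℂ) with hmi
  have hsplit : Gam (p + q) - Gam p - Gam q =
      th + mi + ((Real.log Q - Real.log P : ℝ) : ℂ) • q := by
    funext i
    simp only [Pi.sub_apply, Pi.add_apply, Pi.smul_apply, Gam_apply, hth, hmi, smul_eq_mul]
    push_cast
    ring
  have b1 : nrm th ≤ W := nrm_mono fun i => pointwise _ _
  have b3 : nrm (((Real.log Q - Real.log P : ℝ) : ℂ) • q) ≤ W := by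
    rw [nrm_smul, Complex.norm_real, Real.norm_eq_abs]
    rcases hQ0.eq_or_lt with h | h
    · rw [← hQ, ← h, mul_zero]
      exact hw.le
    · rw [abs_of_nonpos (sub_nonpos.2 (Real.log_le_log h hpq)), ← hQ]
      have h1 := mul_log_sub_le hQ0 hpq
      have h2 : P ≤ W + Q := by
        have h3 := nrm_add_le (p + q) (-q)
        rw [nrm_neg, add_neg_cancel_right] at h3
        exact h3
      have h4 : -(Real.log Q - Real.log P) * Q = Q * (Real.log P - Real.log Q) := by ring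
      rw [h4]
      linarith
  have hL : 0 ≤ Real.log 2 + Real.log P - Real.log W := by
    rw [← Real.log_mul two_ne_zero hP0.ne', sub_nonneg]
    exact Real.log_le_log hw (by linarith)
  have b2 : nrm mi ≤ W * (Real.log 2 + Real.log P - Real.log W) +
      W * (Real.sqrt 2 / Real.exp 1) := by
    set u1 : ι → ℂ := ((Real.log 2 + Real.log P - Real.log W : ℝ) : ℂ) •
      (fun i => ((‖(p + q) i‖ : ℝ) : ℂ)) with hu1
    set u2 : ι → ℂ := ((W / P / Real.exp 1 : ℝ) : ℂ) •
      (fun i => ((max ‖p i‖ ‖q i‖ : ℝ) : ℂ)) with hu2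
    have h1 : nrm mi ≤ nrm (u1 + u2) := by
      refine nrm_mono fun i => ?_
      have h2 := middle (w := p i + q i) (m := max ‖p i‖ ‖q i‖) (P := P) (W := W)
        (le_max_of_le_left (norm_nonneg _)) (by
          have := norm_add_le (p i) (q i)
          have := le_max_left ‖p i‖ ‖q i‖
          have := le_max_right ‖p i‖ ‖q i‖
          linarith) hP0 hw (by linarith)
      refine h2.trans (le_of_eq ?_)
      have h3 : (u1 + u2) i = (((Real.log 2 + Real.log P - Real.log W) * ‖p i + q i‖ +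
          W / P / Real.exp 1 * max ‖p i‖ ‖q i‖ : ℝ) : ℂ) := by
        simp only [hu1, hu2, Pi.add_apply, Pi.smul_apply, smul_eq_mul]
        push_cast
        ring
      rw [h3, Complex.norm_real, Real.norm_eq_abs, abs_of_nonneg]
      · ring
      · positivity
    have h2 : nrm u1 = (Real.log 2 + Real.log P - Real.log W) * W := by
      rw [hu1, nrm_smul, nrm_ofReal_norm, Complex.norm_real, Real.norm_eq_abs, abs_of_nonneg hL]
    have h3 : nrm u2 ≤ W / P / Real.exp 1 * (Real.sqrt 2 * P) := by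
      rw [hu2, nrm_smul, Complex.norm_real, Real.norm_eq_abs, abs_of_nonneg (by positivity)]
      exact mul_le_mul_of_nonneg_left (nrm_max_le p q hpq) (by positivity)
    have h4 : W / P / Real.exp 1 * (Real.sqrt 2 * P) = W * (Real.sqrt 2 / Real.exp 1) := by
      field_simp
    rw [h4] at h3
    have h5 := nrm_add_le u1 u2
    linarith
  rw [hsplit]
  have h1 := nrm_add_le (th + mi) (((Real.log Q - Real.log P : ℝ) : ℂ) • q)
  have h2 := nrm_add_le th mi
  have h3 : W * (2 + Real.sqrt 2 / Real.exp 1 + Real.log 2 + (Real.log P - Real.log W)) =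
      W + (W * (Real.log 2 + Real.log P - Real.log W) + W * (Real.sqrt 2 / Real.exp 1)) + W := by
    ring
  rw [h3]
  linarith

/-- **Quasi-linearity of the Kalton-Peck map**, in a strong form: cancellation costs only a
logarithm. -/
theorem quasi (p q : ι → ℂ) :
    nrm (Gam (p + q) - Gam p - Gam q) ≤
      nrm (p + q) * (33 / 10 + Real.log ((nrm p + nrm q) / nrm (p + q))) := by
  have key : ∀ p q : ι → ℂ, nrm q ≤ nrm p → nrm (Gam (p + q) - Gam p - Gam q) ≤
      nrm (p + q) * (33 / 10 + Real.log ((nrm p + nrm q) / nrm (p + q))) := by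
    intro p q h
    rcases (nrm_nonneg (p + q)).eq_or_lt with h0 | h0
    · have h1 : p + q = 0 := nrm_eq_zero.1 h0.symm
      have h2 : q = -p := (neg_eq_of_add_eq_zero_right h1).symm
      have h3 : Gam (p + q) - Gam p - Gam q = 0 := by
        rw [h1, h2, Gam_zero, Gam_neg]
        simp
      rw [h3, ← h0, zero_mul, nrm_eq_zero.2 rfl]
    · refine (quasi_aux p q h h0).trans (mul_le_mul_of_nonneg_left ?_ h0.le)
      have hP0 : 0 < nrm p := by
        have := nrm_add_le p q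
        linarith
      have hQ0 := nrm_nonneg q
      rw [Real.log_div (by positivity) h0.ne']
      have h1 : Real.log (nrm p) ≤ Real.log (nrm p + nrm q) :=
        Real.log_le_log hP0 (by linarith)
      have h2 := const_lt
      linarith
  rcases le_total (nrm q) (nrm p) with h | h
  · exact key p q h
  · have h1 := key q p h
    rw [add_comm q p, add_comm (nrm q) (nrm p)] at h1
    have h2 : Gam (p + q) - Gam p - Gam q = Gam (p + q) - Gam q - Gam p := by
      abel
    rwa [h2]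

end Vale.Agent.P344
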