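import Vale.Agent.P344.H880.KGamma

/-!
# P344: the conditioning theorem
-/

namespace Vale.Agent.P344

open Finset

/-- The loss factor of an addition or subtraction `w` of `p` and `q`: `1 + log ((|p| + |q|) / |w|)`;
it is `0` for scalar multiplications. -/
noncomputable def Gate.cancel {α ι : Type} [Fintype ι] (x : α → ι → ℂ) : Gate α → ℝ
  | .add p q => 1 + Real.log ((nrm (x p) + nrm (x q)) / nrm (x p + x q))
  | .sub p q => 1 + Real.log ((nrm (x p) + nrm (x q)) / nrm (x p - x q))
  | .smul _ _ => 0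

variable {ι κ : Type} [Fintype ι] [DecidableEq ι] [Fintype κ] [DecidableEq κ]

/-- The loss of gate `g` (not normalised): the norm of the sensitivity of the outputs to the value
of `g`, times the norm of the form computed by `g`, times the loss factor. -/
noncomputable def Circuit.loss (C : Circuit ι κ) (f : C.G → ι → ℂ) (h : C.G → κ → ℂ)
    (g : C.G) : ℝ :=
  nrm (h g) * nrm (f g) * (C.gate g).cancel (C.cell f)

section identity

variable (C : Circuit ι κ) {f : C.G → ι → ℂ} {h : C.G → κ → ℂ}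

theorem sens_eq (k : Option ι ⊕ C.G) : (fun j => C.sensAt h k j) =
    ∑ j, (if C.out j = k then (1 : ℂ) else 0) • (Pi.single j (1 : ℂ) : κ → ℂ) +
      ∑ g, (C.gate g).coef k • h g := by
  funext j
  rw [Circuit.sensAt, Pi.add_apply, Finset.sum_apply, Finset.sum_apply]
  congr 1
  rw [Finset.sum_eq_single j]
  · simp
  · intro j' _ hj
    simp [hj.symm]
  · intro hj
    exact absurd (Finset.mem_univ j) hj

/-- **The identity.** -/
theorem identity (hh : C.IsSens h) (T : (κ → ℂ) →ₗ[ℂ] (ι → ℂ)) (Γ : (ι → ℂ) → (ι → ℂ))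
    (h0 : Γ 0 = 0) (h1 : ∀ i, Γ (Pi.single i 1) = 0) :
    ∑ g, ∑ i, T (h g) i * (Γ (f g) i - ∑ k, (C.gate g).coef k * Γ (C.cell f k) i) =
      ∑ j, ∑ i, T (Pi.single j 1) i * Γ (C.cell f (C.out j)) i := by
  classical
  have e1 : ∑ k, ∑ i, T (fun j => C.sensAt h k j) i * Γ (C.cell f k) i =
      ∑ g, ∑ i, T (h g) i * Γ (f g) i := by
    rw [Fintype.sum_sum_type, Fintype.sum_option]
    have a1 : ∑ i, T (fun j => C.sensAt h (Sum.inl none) j) i *
        Γ (C.cell f (Sum.inl none)) i = 0 := by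
      refine Finset.sum_eq_zero fun i _ => ?_
      show _ * Γ 0 i = 0
      rw [h0, Pi.zero_apply, mul_zero]
    have a2 : ∑ a, ∑ i, T (fun j => C.sensAt h (Sum.inl (some a)) j) i *
        Γ (C.cell f (Sum.inl (some a))) i = 0 := by
      refine Finset.sum_eq_zero fun a _ => Finset.sum_eq_zero fun i _ => ?_
      show _ * Γ (Pi.single a 1) i = 0
      rw [h1, Pi.zero_apply, mul_zero]
    rw [a1, a2, add_zero, zero_add]
    refine Finset.sum_congr rfl fun g _ => ?_
    have a3 : (fun j => C.sensAt h (Sum.inr g) j) = h g := (hh g).symm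
    rw [a3]
    rfl
  have e2 : ∑ k, ∑ i, T (fun j => C.sensAt h k j) i * Γ (C.cell f k) i =
      ∑ j, ∑ i, T (Pi.single j 1) i * Γ (C.cell f (C.out j)) i +
        ∑ g, ∑ i, T (h g) i * ∑ k, (C.gate g).coef k * Γ (C.cell f k) i := by
    have b1 : ∀ k, ∑ i, T (fun j => C.sensAt h k j) i * Γ (C.cell f k) i =
        ∑ j, (if C.out j = k then (1 : ℂ) else 0) *
          (∑ i, T (Pi.single j 1) i * Γ (C.cell f k) i) +
        ∑ g, ∑ i, T (h g) i * ((C.gate g).coef k * Γ (C.cell f k) i) := by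
      intro k
      rw [sens_eq, map_add, map_sum, map_sum]
      simp only [map_smul, Pi.add_apply, Finset.sum_apply, Pi.smul_apply, smul_eq_mul, add_mul,
        Finset.sum_add_distrib, Finset.sum_mul, Finset.mul_sum]
      congr 1
      · rw [Finset.sum_comm]
        exact Finset.sum_congr rfl fun j _ => Finset.sum_congr rfl fun i _ => by ring
      · rw [Finset.sum_comm]
        exact Finset.sum_congr rfl fun j _ => Finset.sum_congr rfl fun i _ => by ring
    rw [Finset.sum_congr rfl fun k _ => b1 k, Finset.sum_add_distrib]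
    congr 1
    · rw [Finset.sum_comm]
      refine Finset.sum_congr rfl fun j _ => ?_
      rw [Finset.sum_eq_single (C.out j)]
      · rw [if_pos rfl, one_mul]
      · intro k _ hk
        rw [if_neg hk.symm, zero_mul]
      · intro hk
        exact absurd (Finset.mem_univ _) hk
    · rw [Finset.sum_comm]
      refine Finset.sum_congr rfl fun g _ => ?_
      rw [Finset.sum_comm]
      refine Finset.sum_congr rfl fun i _ => ?_
      rw [Finset.mul_sum]
  have e3 : ∑ g, ∑ i, T (h g) i * (Γ (f g) i - ∑ k, (C.gate g).coef k * Γ (C.cell f k) i) =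
      ∑ g, ∑ i, T (h g) i * Γ (f g) i -
        ∑ g, ∑ i, T (h g) i * ∑ k, (C.gate g).coef k * Γ (C.cell f k) i := by
    simp only [mul_sub, Finset.sum_sub_distrib]
  rw [e3, ← e1, e2, add_sub_cancel_right]

/-- The sum over the cells read by a gate. -/
theorem sum_coef (G : Gate (Option ι ⊕ C.G)) (φ : Option ι ⊕ C.G → ℂ) :
    ∑ k, G.coef k * φ k = match G with
      | .add p q => φ p + φ q
      | .sub p q => φ p - φ q
      | .smul c p => c * φ p := by
  cases G with
  | add p q => simp [Gate.coef, add_mul, Finset.sum_add_distrib]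
  | sub p q => simp [Gate.coef, sub_mul, Finset.sum_sub_distrib]
  | smul c p => simp [Gate.coef]

theorem cancel_nonneg {p q : ι → ℂ} :
    0 ≤ nrm (p + q) * (1 + Real.log ((nrm p + nrm q) / nrm (p + q))) := by
  have h3 : 0 ≤ nrm (p + q) := nrm_nonneg _
  rcases h3.eq_or_lt with h6 | h6
  · rw [← h6, zero_mul]
  · refine mul_nonneg h3 (add_nonneg zero_le_one (Real.log_nonneg ?_))
    rw [le_div_iff₀ h6, one_mul]
    exact nrm_add_le p q

theorem loss_nonneg (hf : C.IsForms f) (g : C.G) : 0 ≤ C.loss f h g := by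
  have hfg := hf g
  rw [Circuit.loss, mul_assoc]
  refine mul_nonneg (nrm_nonneg _) ?_
  rcases hG : C.gate g with ⟨p, q⟩ | ⟨p, q⟩ | ⟨c, p⟩
  · rw [hG, Gate.eval] at hfg
    simp only [Gate.cancel]
    rw [hfg]
    exact cancel_nonneg
  · rw [hG, Gate.eval] at hfg
    simp only [Gate.cancel]
    rw [hfg, sub_eq_add_neg, ← nrm_neg (C.cell f q)]
    exact cancel_nonneg
  · simp only [Gate.cancel, mul_zero, le_refl]

/-- The error of one gate. -/
theorem gate_error (hf : C.IsForms f) (T : (κ → ℂ) →ₗ[ℂ] (ι → ℂ)) {a : ℝ} (ha : 0 ≤ a)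
    (g : C.G) (hT : nrm (T (h g)) ≤ a * nrm (h g)) :
    ‖∑ i, T (h g) i * (Gam (f g) i - ∑ k, (C.gate g).coef k * Gam (C.cell f k) i)‖ ≤
      33 / 10 * a * C.loss f h g := by
  have hb : ∀ p q : ι → ℂ, ‖∑ i, T (h g) i * (Gam (p + q) i - (Gam p i + Gam q i))‖ ≤
      33 / 10 * a * (nrm (h g) * nrm (p + q) *
        (1 + Real.log ((nrm p + nrm q) / nrm (p + q)))) := by
    intro p q
    have h1 : ∑ i, T (h g) i * (Gam (p + q) i - (Gam p i + Gam q i)) =
        ∑ i, T (h g) i * (Gam (p + q) - Gam p - Gam q) i := by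
      refine Finset.sum_congr rfl fun i _ => ?_
      rw [Pi.sub_apply, Pi.sub_apply]
      ring
    rw [h1]
    refine (norm_sum_mul_le _ _).trans ?_
    have h2 := quasi p q
    have h3 : 0 ≤ nrm (p + q) := nrm_nonneg _
    have h4 : 0 ≤ nrm (h g) := nrm_nonneg _
    have h5 : 0 ≤ nrm (p + q) * Real.log ((nrm p + nrm q) / nrm (p + q)) := by
      rcases h3.eq_or_lt with h6 | h6
      · rw [← h6, zero_mul]
      · refine mul_nonneg h3 (Real.log_nonneg ?_)
        rw [le_div_iff₀ h6, one_mul]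
        exact nrm_add_le p q
    calc nrm (T (h g)) * nrm (Gam (p + q) - Gam p - Gam q) ≤
        (a * nrm (h g)) * (nrm (p + q) *
          (33 / 10 + Real.log ((nrm p + nrm q) / nrm (p + q)))) :=
          mul_le_mul hT h2 (nrm_nonneg _) (mul_nonneg ha h4)
      _ ≤ _ := by
          have h7 : 0 ≤ a * nrm (h g) * (nrm (p + q) *
              Real.log ((nrm p + nrm q) / nrm (p + q))) := by positivity
          nlinarith
  have hfg := hf g
  rw [Circuit.loss]
  simp only [sum_coef]
  rcases hG : C.gate g with ⟨p, q⟩ | ⟨p, q⟩ | ⟨c, p⟩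
  · rw [hG, Gate.eval] at hfg
    have h1 := hb (C.cell f p) (C.cell f q)
    simp only [Gate.cancel]
    rw [hfg]
    exact h1
  · rw [hG, Gate.eval] at hfg
    have h1 := hb (C.cell f p) (-C.cell f q)
    simp only [Gate.cancel]
    rw [hfg]
    rw [← sub_eq_add_neg, nrm_neg] at h1
    have h2 : ∑ i, T (h g) i * (Gam (C.cell f p - C.cell f q) i -
        (Gam (C.cell f p) i - Gam (C.cell f q) i)) =
        ∑ i, T (h g) i * (Gam (C.cell f p - C.cell f q) i -
        (Gam (C.cell f p) i + Gam (-C.cell f q) i)) := by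
      refine Finset.sum_congr rfl fun i _ => ?_
      rw [Gam_neg, Pi.neg_apply]
      ring
    rw [h2]
    exact h1
  · rw [hG, Gate.eval] at hfg
    simp only [Gate.cancel, mul_zero]
    rw [hfg]
    simp [Gam_smul]

end identity

section main

variable {n : ℕ}

theorem nrm_mulVec {A : Matrix (Fin n) (Fin n) ℂ} (hA : A * A.conjTranspose = (n : ℂ) • 1)
    (z : Fin n → ℂ) : nrm (A.conjTranspose.mulVec z) = Real.sqrt n * nrm z := by
  have h1 : ∀ v : Fin n → ℂ, ((∑ i, ‖v i‖ ^ 2 : ℝ) : ℂ) = star v ⬝ᵥ v := by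
    intro v
    rw [dotProduct]
    push_cast
    refine Finset.sum_congr rfl fun i _ => ?_
    rw [Pi.star_apply, Complex.star_def, Complex.conj_mul']
  have h2 : ((∑ i, ‖A.conjTranspose.mulVec z i‖ ^ 2 : ℝ) : ℂ) =
      ((n * ∑ i, ‖z i‖ ^ 2 : ℝ) : ℂ) := by
    rw [h1, Matrix.star_mulVec, Matrix.conjTranspose_conjTranspose, ← Matrix.dotProduct_mulVec,
      Matrix.mulVec_mulVec, hA, Matrix.smul_mulVec, Matrix.one_mulVec, dotProduct_smul,
      smul_eq_mul]
    push_cast [← h1]
    rfl
  have h3 : (∑ i, ‖A.conjTranspose.mulVec z i‖ ^ 2 : ℝ) = n * ∑ i, ‖z i‖ ^ 2 := by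
    exact_mod_cast h2
  rw [nrm, h3, Real.sqrt_mul (Nat.cast_nonneg n), nrm]

/-- The orthogonal projection onto the complement of `span (y b)`. -/
theorem exists_proj (m : ℕ) {β : Type} (B : Finset β) (y : β → Fin m → ℂ) :
    ∃ P : (Fin m → ℂ) →ₗ[ℂ] (Fin m → ℂ), (∀ b ∈ B, P (y b) = 0) ∧ (∀ z, nrm (P z) ≤ nrm z) ∧
      ∃ t : ℝ, (m : ℝ) - B.card ≤ t ∧ ∑ j, P (Pi.single j 1) j = (t : ℂ) := by
  classical
  set E := EuclideanSpace ℂ (Fin m) with hE
  set e : (Fin m → ℂ) ≃ₗ[ℂ] E := (WithLp.linearEquiv 2 ℂ (Fin m → ℂ)).symm with he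
  set K : Submodule ℂ E := Submodule.span ℂ ((B.image fun b => e (y b) : Finset E) : Set E)
    with hK
  set Q : E →ₗ[ℂ] E := (Kᗮ.starProjection : E →L[ℂ] E).toLinearMap with hQ
  refine ⟨e.symm.toLinearMap ∘ₗ Q ∘ₗ e.toLinearMap, fun b hb => ?_, fun z => ?_,
    Module.finrank ℂ Kᗮ, ?_, ?_⟩
  · have h1 : e (y b) ∈ K := Submodule.subset_span (by
      rw [Finset.mem_coe, Finset.mem_image]
      exact ⟨b, hb, rfl⟩)
    have h2 : Q (e (y b)) = 0 := by
      rw [hQ]
      show Kᗮ.starProjection (e (y b)) = 0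
      rw [Submodule.starProjection_apply_eq_zero_iff]
      rw [Submodule.orthogonal_orthogonal]
      exact h1
    rw [LinearMap.comp_apply, LinearMap.comp_apply]
    show e.symm (Q (e (y b))) = 0
    rw [h2, map_zero]
  · have h1 : ‖Kᗮ.starProjection (e z)‖ ≤ ‖e z‖ := Submodule.norm_starProjection_apply_le _ _
    rw [nrm_eq, nrm_eq]
    exact h1
  · have h1 : Module.finrank ℂ K + Module.finrank ℂ Kᗮ = Module.finrank ℂ E :=
      Submodule.finrank_add_finrank_orthogonal K
    have h2 : Module.finrank ℂ E = m := finrank_euclideanSpace_fin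
    have h3 : Module.finrank ℂ K ≤ B.card :=
      (finrank_span_finset_le_card _).trans Finset.card_image_le
    have h4 : m ≤ B.card + Module.finrank ℂ Kᗮ := by omega
    have h5 : (m : ℝ) ≤ B.card + Module.finrank ℂ Kᗮ := by exact_mod_cast h4
    linarith
  · have h1 : LinearMap.trace ℂ E Q = (Module.finrank ℂ Kᗮ : ℂ) := by
      have h2 : LinearMap.IsProj Kᗮ Q := by
        constructor
        · intro x
          exact Submodule.starProjection_apply_mem _ _
        · intro x hx
          exact Submodule.starProjection_eq_self_iff.2 hx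
      exact h2.trace
    have h3 := LinearMap.trace_eq_sum_inner Q (EuclideanSpace.basisFun (Fin m) ℂ)
    rw [h1] at h3
    push_cast
    rw [h3]
    refine Finset.sum_congr rfl fun j _ => ?_
    rw [EuclideanSpace.basisFun_apply, EuclideanSpace.inner_single_left, map_one, one_mul]
    rfl

/-- **The conditioning theorem.** -/
theorem kmain (C : Circuit (Fin n) (Fin n)) {f : C.G → Fin n → ℂ} {h : C.G → Fin n → ℂ}
    (hf : C.IsForms f) (hh : C.IsSens h) {A : Matrix (Fin n) (Fin n) ℂ}
    (hA : A * A.conjTranspose = (n : ℂ) • 1) (hflat : ∀ j i, ‖A j i‖ = 1)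
    (hout : ∀ j, C.cell f (C.out j) = A j) (B : Finset C.G) :
    ((n : ℝ) - B.card) * Real.logb 2 n ≤
      10 * ∑ g ∈ Finset.univ \ B, C.loss f h g / Real.sqrt n := by
  classical
  rcases Nat.eq_zero_or_pos n with hn | hn
  · subst hn
    have h1 : ((0 : ℕ) : ℝ) = 0 := Nat.cast_zero
    simp
  have hn0 : (0 : ℝ) < n := by exact_mod_cast hn
  obtain ⟨P, hPB, hPn, t, ht, htr⟩ := exists_proj n B h
  set T : (Fin n → ℂ) →ₗ[ℂ] (Fin n → ℂ) := (Matrix.mulVecLin A.conjTranspose) ∘ₗ P with hT
  have hTapp : ∀ y, T y = A.conjTranspose.mulVec (P y) := fun y => rfl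
  have hTn : ∀ y, nrm (T y) ≤ Real.sqrt n * nrm y := by
    intro y
    rw [hTapp, nrm_mulVec hA]
    exact mul_le_mul_of_nonneg_left (hPn y) (Real.sqrt_nonneg _)
  have hTB : ∀ g ∈ B, T (h g) = 0 := by
    intro g hg
    rw [hTapp, hPB g hg, Matrix.mulVec_zero]
  have hid := identity C (f := f) hh T Gam Gam_zero Gam_single
  -- the right-hand side
  have hR : ∑ j, ∑ i, T (Pi.single j 1) i * Gam (C.cell f (C.out j)) i =
      ((-(Real.log n / 2) * n * t : ℝ) : ℂ) := by
    have e1 : ∀ j, ∑ i, T (Pi.single j 1) i * Gam (C.cell f (C.out j)) i =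
        ((-(Real.log n / 2) * n : ℝ) : ℂ) * P (Pi.single j 1) j := by
      intro j
      rw [hout j, Gam_flat (hflat j), Fintype.card_fin]
      have e2 : ∑ i, T (Pi.single j 1) i * A j i = n * P (Pi.single j 1) j := by
        have e3 : ∑ i, T (Pi.single j 1) i * A j i =
            (A.mulVec (A.conjTranspose.mulVec (P (Pi.single j 1)))) j := by
          rw [hTapp]
          show _ = ∑ i, A j i * _
          exact Finset.sum_congr rfl fun i _ => mul_comm _ _
        rw [e3, Matrix.mulVec_mulVec, hA, Matrix.smul_mulVec, Matrix.one_mulVec, Pi.smul_apply,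
          smul_eq_mul]
      simp only [Pi.smul_apply, smul_eq_mul]
      calc ∑ i, T (Pi.single j 1) i * (((-(Real.log n / 2) : ℝ) : ℂ) * A j i) =
          ((-(Real.log n / 2) : ℝ) : ℂ) * ∑ i, T (Pi.single j 1) i * A j i := by
            rw [Finset.mul_sum]
            exact Finset.sum_congr rfl fun i _ => by ring
        _ = _ := by
            rw [e2]
            push_cast
            ring
    rw [Finset.sum_congr rfl fun j _ => e1 j, ← Finset.mul_sum, htr]
    push_cast
    ring
  rw [hR] at hid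
  -- the left-hand side
  have hL : ‖∑ g, ∑ i, T (h g) i *
      (Gam (f g) i - ∑ k, (C.gate g).coef k * Gam (C.cell f k) i)‖ ≤
      33 / 10 * Real.sqrt n * ∑ g ∈ Finset.univ \ B, C.loss f h g := by
    have e1 : ∑ g, ∑ i, T (h g) i *
        (Gam (f g) i - ∑ k, (C.gate g).coef k * Gam (C.cell f k) i) =
        ∑ g ∈ Finset.univ \ B, ∑ i, T (h g) i *
        (Gam (f g) i - ∑ k, (C.gate g).coef k * Gam (C.cell f k) i) := by
      refine (Finset.sum_subset (Finset.subset_univ _) fun g _ hg => ?_).symm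
      have hg' : g ∈ B := by
        by_contra h1
        exact hg (Finset.mem_sdiff.2 ⟨Finset.mem_univ _, h1⟩)
      rw [hTB g hg']
      simp
    rw [e1, Finset.mul_sum]
    refine (norm_sum_le _ _).trans (Finset.sum_le_sum fun g _ => ?_)
    exact gate_error C hf T (Real.sqrt_nonneg _) g (hTn _)
  rw [hid, Complex.norm_real, Real.norm_eq_abs] at hL
  have h1 : Real.log n / 2 * n * t ≤ |-(Real.log n / 2) * n * t| := by
    have := neg_le_abs (-(Real.log n / 2) * n * t)
    linarith
  have h2 : Real.log n / 2 * n * t ≤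
      33 / 10 * Real.sqrt n * ∑ g ∈ Finset.univ \ B, C.loss f h g := h1.trans hL
  have hs : Real.sqrt n * Real.sqrt n = n := Real.mul_self_sqrt hn0.le
  have hs0 : 0 < Real.sqrt n := Real.sqrt_pos.2 hn0
  set S := ∑ g ∈ Finset.univ \ B, C.loss f h g with hS
  have h3 : Real.log n * t ≤ 33 / 5 * (S / Real.sqrt n) := by
    have h4 : Real.log n / 2 * n * t = (Real.sqrt n * Real.sqrt n) * (Real.log n / 2 * t) := by
      rw [hs]
      ring
    rw [h4] at h2
    have h5 : Real.sqrt n * (Real.sqrt n * (Real.log n / 2 * t)) ≤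
        Real.sqrt n * (33 / 10 * S) := by
      calc _ = (Real.sqrt n * Real.sqrt n) * (Real.log n / 2 * t) := by ring
        _ ≤ _ := h2
        _ = _ := by ring
    have h6 := le_of_mul_le_mul_left h5 hs0
    have h7 : Real.sqrt n * (Real.log n * t) ≤ Real.sqrt n * (33 / 5 * (S / Real.sqrt n)) := by
      have h8 : Real.sqrt n * (33 / 5 * (S / Real.sqrt n)) = 33 / 5 * S := by
        field_simp
      rw [h8]
      nlinarith
    exact le_of_mul_le_mul_left h7 hs0
  have hlog : 0 ≤ Real.log n := Real.log_nonneg (by exact_mod_cast hn)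
  have h4 : ((n : ℝ) - B.card) * Real.log n ≤ Real.log n * t := by
    rw [mul_comm]
    exact mul_le_mul_of_nonneg_left ht hlog
  have h5 := Real.log_two_gt_d9
  have h6 : Real.logb 2 n = Real.log n / Real.log 2 := rfl
  have h7 : 0 ≤ S / Real.sqrt n :=
    div_nonneg (Finset.sum_nonneg fun g _ => loss_nonneg C hf g) hs0.le
  rw [← Finset.sum_div, h6, ← mul_div_assoc, div_le_iff₀ (by linarith)]
  nlinarith

end main

end Vale.Agent.P344
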